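/-
The one-dimensional channel: for `κ ∈ (0,1)`, `m ∈ [-1,1]`, the map `w ↦ x(w)` on `[-1,1]` is the
quantile map of the law `(1 + m t) dt / (2κ)` on `[-κ,κ]`, pushed from `dw/2`.
With `R = √(1 + 2 a w + a²)`, `a = κ m`, we have `x = κ (2w + a)/(1+R)`, `1 + m x = R`, `x' = κ/R`.
-/
import Mathlib

set_option autoImplicit false
set_option linter.unusedSectionVars false
set_option linter.unusedVariables false

namespace Crest.Agent.Lib.IsingFIID

open MeasureTheory Set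

/-- The radicand. -/
noncomputable def chRad (κ m w : ℝ) : ℝ := 1 + 2 * (κ * m) * w + (κ * m) ^ 2

/-- The radius `R`. -/
noncomputable def chR (κ m w : ℝ) : ℝ := Real.sqrt (chRad κ m w)

/-- The channel value `x(w)`. -/
noncomputable def chX (κ m w : ℝ) : ℝ := κ * (2 * w + κ * m) / (1 + chR κ m w)

/-- The update coefficient `Γ = x/(1 + x m)`. -/
noncomputable def chG (κ m w : ℝ) : ℝ := chX κ m w / (1 + chX κ m w * m)

/-- Admissible parameters. -/
structure ChArg (κ m w : ℝ) : Prop where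
  κ0 : 0 < κ
  κ1 : κ < 1
  hm : |m| ≤ 1
  hw : |w| ≤ 1

variable {κ m w : ℝ}

lemma ChArg.a_abs (h : ChArg κ m w) : |κ * m| ≤ κ := by
  rw [abs_mul, abs_of_pos h.κ0]
  exact mul_le_of_le_one_right h.κ0.le h.hm

lemma ChArg.rad_ge (h : ChArg κ m w) : (1 - κ) ^ 2 ≤ chRad κ m w := by
  unfold chRad
  have h1 := abs_le.mp h.a_abs
  have h2 := abs_le.mp h.hw
  have hk := h.κ0
  have hk1 := h.κ1
  set a := κ * m with ha
  -- 1 + 2 a w + a² ≥ 1 - 2|a| + a²
  have h3 : -(κ) ≤ a * w := by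
    have : |a * w| ≤ κ := by
      rw [abs_mul]
      calc |a| * |w| ≤ κ * 1 := mul_le_mul h.a_abs h.hw (abs_nonneg _) hk.le
        _ = κ := mul_one κ
    exact (abs_le.mp this).1
  have h4 : a ^ 2 ≤ κ ^ 2 := by
    rw [← sq_abs a]; exact pow_le_pow_left₀ (abs_nonneg _) h.a_abs 2
  by_cases hw0 : 0 ≤ a * w
  · nlinarith [sq_nonneg a, sq_nonneg (1 - κ), sq_nonneg κ]
  · -- use |a w| ≤ |a|
    have h5 : -|a| ≤ a * w := by
      have : |a * w| ≤ |a| := by
        rw [abs_mul]; exact mul_le_of_le_one_right (abs_nonneg _) h.hw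
      exact (abs_le.mp this).1
    have h6 : (1 - |a|) ^ 2 ≤ 1 + 2 * a * w + a ^ 2 := by
      have : a ^ 2 = |a| ^ 2 := (sq_abs a).symm
      rw [this]; nlinarith
    have h7 : (1 - κ) ^ 2 ≤ (1 - |a|) ^ 2 := by
      apply pow_le_pow_left₀ (by linarith)
      linarith [h.a_abs]
    linarith

lemma ChArg.rad_pos (h : ChArg κ m w) : 0 < chRad κ m w := by
  have := h.rad_ge
  have h2 : 0 < (1 - κ) ^ 2 := by have := h.κ1; nlinarith [h.κ0]
  linarith

lemma ChArg.R_pos (h : ChArg κ m w) : 0 < chR κ m w := Real.sqrt_pos.mpr h.rad_pos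

lemma ChArg.R_ge (h : ChArg κ m w) : 1 - κ ≤ chR κ m w := by
  unfold chR
  apply Real.le_sqrt_of_sq_le h.rad_ge

lemma R_sq (h : ChArg κ m w) : chR κ m w ^ 2 = chRad κ m w := Real.sq_sqrt h.rad_pos.le

/-- `1 + m x = R`. -/
lemma one_add_m_chX (h : ChArg κ m w) : 1 + m * chX κ m w = chR κ m w := by
  have hR := h.R_pos
  have hs := R_sq h
  unfold chX
  field_simp
  unfold chRad at hs
  nlinarith

lemma one_add_chX_m (h : ChArg κ m w) : 1 + chX κ m w * m = chR κ m w := by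
  rw [mul_comm]; exact one_add_m_chX h

/-- `Γ = x / R`. -/
lemma chG_eq (h : ChArg κ m w) : chG κ m w = chX κ m w / chR κ m w := by
  unfold chG; rw [one_add_chX_m h]

lemma chX_quad (h : ChArg κ m w) :
    m * chX κ m w ^ 2 / 2 + chX κ m w = κ * w + m * κ ^ 2 / 2 := by
  have h1 := one_add_m_chX h
  have hR := h.R_pos
  have hs := R_sq h
  have h3 : chX κ m w * (1 + chR κ m w) = κ * (2 * w + κ * m) := by
    unfold chX; field_simp
  -- multiply: x (1 + (1 + m x)) = κ (2 w + κ m)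
  rw [← h1] at h3
  nlinarith

lemma chX_one (h0 : 0 < κ) (h1 : κ < 1) (hm : |m| ≤ 1) : chX κ m 1 = κ := by
  have h2 := abs_le.mp hm
  have ha : 0 < 1 + κ * m := by nlinarith
  have : chR κ m 1 = 1 + κ * m := by
    unfold chR chRad
    rw [show 1 + 2 * (κ * m) * 1 + (κ * m) ^ 2 = (1 + κ * m) ^ 2 by ring]
    exact Real.sqrt_sq ha.le
  unfold chX
  rw [this]
  field_simp
  ring

lemma chX_neg_one (h0 : 0 < κ) (h1 : κ < 1) (hm : |m| ≤ 1) : chX κ m (-1) = -κ := by
  have h2 := abs_le.mp hm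
  have ha : 0 < 1 - κ * m := by nlinarith
  have : chR κ m (-1) = 1 - κ * m := by
    unfold chR chRad
    rw [show 1 + 2 * (κ * m) * (-1) + (κ * m) ^ 2 = (1 - κ * m) ^ 2 by ring]
    exact Real.sqrt_sq ha.le
  unfold chX
  rw [this]
  have : 1 + (1 - κ * m) ≠ 0 := by nlinarith
  field_simp
  ring

/-- Derivative of `x`. -/
lemma hasDerivAt_chX (h : ChArg κ m w) : HasDerivAt (chX κ m) (κ / chR κ m w) w := by
  have hR := h.R_pos
  have hrad := h.rad_pos
  have hs := R_sq h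
  have d1 : HasDerivAt (chRad κ m) (2 * (κ * m)) w := by
    unfold chRad
    have := ((hasDerivAt_id w).const_mul (2 * (κ * m))).const_add 1
    have h2 := this.add_const ((κ * m) ^ 2)
    simpa [mul_comm] using h2
  have d2 : HasDerivAt (chR κ m) (2 * (κ * m) / (2 * chR κ m w)) w := by
    unfold chR
    exact d1.sqrt hrad.ne'
  have d3 : HasDerivAt (fun v => κ * (2 * v + κ * m)) (κ * 2) w := by
    have := (((hasDerivAt_id w).const_mul (2 : ℝ)).add_const (κ * m)).const_mul κ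
    simpa using this
  have d4 : HasDerivAt (fun v => 1 + chR κ m v) (2 * (κ * m) / (2 * chR κ m w)) w :=
    d2.const_add 1
  have hne : 1 + chR κ m w ≠ 0 := by positivity
  have d5 := d3.div d4 hne
  have e : (κ * 2 * (1 + chR κ m w) - κ * (2 * w + κ * m) * (2 * (κ * m) / (2 * chR κ m w))) /
      (1 + chR κ m w) ^ 2 = κ / chR κ m w := by
    field_simp
    unfold chRad at hs
    linear_combination κ * hs
  rw [e] at d5
  exact d5

lemma chX_continuousOn (h0 : 0 < κ) (h1 : κ < 1) (hm : |m| ≤ 1) :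
    ContinuousOn (chX κ m) (Icc (-1) 1) := fun w hw =>
  (hasDerivAt_chX ⟨h0, h1, hm, abs_le.mpr hw⟩).continuousAt.continuousWithinAt

lemma chX_strictMonoOn (h0 : 0 < κ) (h1 : κ < 1) (hm : |m| ≤ 1) :
    StrictMonoOn (chX κ m) (Icc (-1) 1) := by
  apply strictMonoOn_of_deriv_pos (convex_Icc _ _) (chX_continuousOn h0 h1 hm)
  intro w hw
  rw [interior_Icc] at hw
  have harg : ChArg κ m w := ⟨h0, h1, hm, abs_le.mpr ⟨hw.1.le, hw.2.le⟩⟩
  rw [(hasDerivAt_chX harg).deriv]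
  exact div_pos h0 harg.R_pos

lemma chX_mem (h : ChArg κ m w) : chX κ m w ∈ Icc (-κ) κ := by
  have hmono := chX_strictMonoOn h.κ0 h.κ1 h.hm
  have hw := abs_le.mp h.hw
  have hwm : w ∈ Icc (-1 : ℝ) 1 := ⟨hw.1, hw.2⟩
  constructor
  · rw [← chX_neg_one h.κ0 h.κ1 h.hm]
    exact hmono.monotoneOn (left_mem_Icc.mpr (by norm_num)) hwm hw.1
  · have := hmono.monotoneOn hwm (right_mem_Icc.mpr (by norm_num)) hw.2
    rwa [chX_one h.κ0 h.κ1 h.hm] at this

lemma abs_chX_le (h : ChArg κ m w) : |chX κ m w| ≤ κ := abs_le.mpr (chX_mem h)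

/-- Image of `[-1,1]` under `x` is `[-κ,κ]`. -/
lemma chX_image (h0 : 0 < κ) (h1 : κ < 1) (hm : |m| ≤ 1) :
    chX κ m '' Icc (-1) 1 = Icc (-κ) κ := by
  have hc := chX_continuousOn (m := m) h0 h1 hm
  apply Subset.antisymm
  · rintro _ ⟨w, hw, rfl⟩
    exact chX_mem ⟨h0, h1, hm, abs_le.mpr hw⟩
  · have := intermediate_value_Icc (a := (-1 : ℝ)) (b := 1) (by norm_num) hc
    rwa [chX_neg_one h0 h1 hm, chX_one h0 h1 hm] at this

/-- **Change of variables**: the push-forward of `dw` on `[-1,1]` under `x` is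
`(1 + m t) dt / κ` on `[-κ,κ]`. -/
theorem integral_chX (h0 : 0 < κ) (h1 : κ < 1) (hm : |m| ≤ 1) (φ : ℝ → ℝ) :
    ∫ w in Icc (-1 : ℝ) 1, φ (chX κ m w) = ∫ t in Icc (-κ) κ, φ t * (1 + m * t) / κ := by
  have hmono := chX_strictMonoOn (m := m) h0 h1 hm
  have hd : ∀ w ∈ Icc (-1 : ℝ) 1, HasDerivWithinAt (chX κ m) (κ / chR κ m w) (Icc (-1) 1) w :=
    fun w hw => (hasDerivAt_chX ⟨h0, h1, hm, abs_le.mpr hw⟩).hasDerivWithinAt
  have := integral_image_eq_integral_abs_deriv_smul (s := Icc (-1 : ℝ) 1) measurableSet_Icc hd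
    hmono.injOn (fun t => φ t * (1 + m * t) / κ)
  rw [chX_image h0 h1 hm] at this
  rw [this]
  refine setIntegral_congr_fun measurableSet_Icc fun w hw => ?_
  have harg : ChArg κ m w := ⟨h0, h1, hm, abs_le.mpr hw⟩
  have hR := harg.R_pos
  simp only [smul_eq_mul]
  rw [one_add_m_chX harg, abs_of_pos (div_pos h0 hR)]
  field_simp

/-- The mean-zero property of `Γ` (martingale property of the channel). -/
theorem integral_chG (h0 : 0 < κ) (h1 : κ < 1) (hm : |m| ≤ 1) :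
    ∫ w in Icc (-1 : ℝ) 1, chG κ m w = 0 := by
  have e : ∀ w ∈ Icc (-1 : ℝ) 1, chG κ m w = (fun t => t / (1 + t * m)) (chX κ m w) := fun w _ => rfl
  have e2 : ∫ w in Icc (-1 : ℝ) 1, chG κ m w =
      ∫ w in Icc (-1 : ℝ) 1, (fun t => t / (1 + t * m)) (chX κ m w) := rfl
  rw [e2, integral_chX h0 h1 hm (fun t => t / (1 + t * m))]
  have hm' := abs_le.mp hm
  have e3 : ∫ t in Icc (-κ) κ, t / (1 + t * m) * (1 + m * t) / κ = ∫ t in Icc (-κ) κ, t / κ := by
    refine setIntegral_congr_fun measurableSet_Icc fun t ht => ?_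
    have ht' : |t| ≤ κ := abs_le.mpr ht
    have h2 : 0 < 1 + t * m := by
      have h3 : |t * m| < 1 := by
        rw [abs_mul]
        calc |t| * |m| ≤ κ * 1 := mul_le_mul ht' hm (abs_nonneg _) h0.le
          _ < 1 := by linarith
      linarith [(abs_lt.mp h3).1]
    rw [mul_comm m t]
    field_simp
  rw [e3]
  rw [integral_Icc_eq_integral_Ioc, ← intervalIntegral.integral_of_le (by linarith)]
  rw [intervalIntegral.integral_div]
  simp

end Crest.Agent.Lib.IsingFIID
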