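/-
Task GI: finite-window Gibbs measures (umbrella file; the statements of `Stubs.lean`, block GI).
-/
import Crest.Agent.Lib.IsingFIID.GibbsBasic
import Crest.Agent.Lib.IsingFIID.GibbsGrow
import Crest.Agent.Lib.IsingFIID.BetheQ
import Crest.Agent.Lib.IsingFIID.GibbsBridgeQ
import Crest.Agent.Lib.IsingFIID.GibbsTree
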