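/-
Row 160 (S0241): umbrella of the foundation: tasks CH, GI, RI.
-/
import Crest.Agent.Lib.IsingFIID.Gibbs
import Crest.Agent.Lib.IsingFIID.ChannelQ
import Crest.Agent.Lib.IsingFIID.RingsBasic
import Crest.Agent.Lib.IsingFIID.RingInc
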