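/-
Row 160 (S0241), Task LA, `integral_convex_mono`: monotonicity in `θ` of `E Ψ(m)` for even convex `Ψ`.
Part A: gauge + mixture over edge signs + Jensen (purely finite).
-/
import Crest.Agent.Lib.IsingFIID.Basic

set_option autoImplicit false

namespace Crest.Agent.Lib.IsingFIID.MonoF

open MeasureTheory Filter Topology Set SimpleGraph

variable {V : Type*} [DecidableEq V] {G : SimpleGraph V}

/-! ### Gauge on a tree: every sign assignment on the edges is a coboundary -/

theorem exists_gauge (hT : G.IsTree) (χ : Sym2 V → ℝ) (hχ : ∀ e, χ e = 1 ∨ χ e = -1) :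
    ∃ b : V → ℝ, (∀ u, b u = 1 ∨ b u = -1) ∧ ∀ u v, G.Adj u v → χ s(u, v) = b u * b v := by
  classical
  obtain ⟨o⟩ := hT.1.nonempty
  have hpar : ∀ v, ∃ a, v ≠ o → (G.Adj v a ∧ G.dist o v = G.dist o a + 1) := by
    intro v
    by_cases hv : v = o
    · exact ⟨o, fun h => absurd hv h⟩
    · obtain ⟨a, ha⟩ := exists_closer hT o hv
      exact ⟨a, fun _ => ha⟩
  choose par hpar using hpar
  let c : ℕ → V → ℝ := fun n => Nat.rec (fun _ => 1) (fun _ ih v => χ s(v, par v) * ih (par v)) n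
  have hc0 : ∀ v, c 0 v = 1 := fun _ => rfl
  have hcs : ∀ n v, c (n + 1) v = χ s(v, par v) * c n (par v) := fun _ _ => rfl
  have hcsign : ∀ n v, c n v = 1 ∨ c n v = -1 := by
    intro n
    induction n with
    | zero => exact fun v => Or.inl (hc0 v)
    | succ n ih =>
      intro v
      rw [hcs]
      rcases hχ s(v, par v) with h | h <;> rcases ih (par v) with h' | h' <;> simp [h, h']
  refine ⟨fun v => c (G.dist o v) v, fun u => hcsign _ u, ?_⟩
  -- one-sided step
  have hstep : ∀ u v, G.Adj u v → G.dist o u = G.dist o v + 1 →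
      χ s(u, v) = c (G.dist o u) u * c (G.dist o v) v := by
    intro u v huv hd
    have hune : u ≠ o := by
      rintro rfl
      simp at hd
    obtain ⟨hadj, hdp⟩ := hpar u hune
    have hpv : par u = v := closer_unique hT o hadj huv hdp hd
    rw [hd, hcs, hpv]
    have h1 : c (G.dist o v) v * c (G.dist o v) v = 1 := by
      rcases hcsign (G.dist o v) v with h | h <;> rw [h] <;> norm_num
    calc χ s(u, v) = χ s(u, v) * (c (G.dist o v) v * c (G.dist o v) v) := by rw [h1, mul_one]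
      _ = _ := by ring
  intro u v huv
  rcases hT.dist_eq_dist_add_one_of_adj o huv with h | h
  · exact hstep u v huv h
  · have := hstep v u huv.symm h
    rw [Sym2.eq_swap, this]
    ring

/-! ### Flipping patterns -/

/-- The pattern flipped by the signs `b`. -/
noncomputable def flipA (b : V → ℝ) (W A : Finset V) : Finset V :=
  @Finset.filter V (fun u => b u * sp A u = 1) (Classical.decPred _) W

theorem sp_sign (A : Finset V) (u : V) : sp A u = 1 ∨ sp A u = -1 := by
  unfold sp; split_ifs <;> simp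

theorem sp_flipA {b : V → ℝ} (hb : ∀ u, b u = 1 ∨ b u = -1) {W : Finset V} (A : Finset V) {u : V}
    (hu : u ∈ W) : sp (flipA b W A) u = b u * sp A u := by
  classical
  have hmem : u ∈ flipA b W A ↔ b u * sp A u = 1 := by
    unfold flipA
    rw [Finset.mem_filter]
    exact ⟨fun h => h.2, fun h => ⟨hu, h⟩⟩
  by_cases h : b u * sp A u = 1
  · rw [h]
    exact if_pos (hmem.2 h)
  · have h1 : sp (flipA b W A) u = -1 := if_neg (mt hmem.1 h)
    rw [h1]
    rcases hb u with h2 | h2 <;> rcases sp_sign A u with h3 | h3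
    · exact absurd (by rw [h2, h3]; norm_num) h
    · rw [h2, h3]; norm_num
    · rw [h2, h3]; norm_num
    · exact absurd (by rw [h2, h3]; norm_num) h

theorem flipA_subset (b : V → ℝ) (W A : Finset V) : flipA b W A ⊆ W := by
  classical
  unfold flipA
  exact Finset.filter_subset _ _

theorem flipA_flipA {b : V → ℝ} (hb : ∀ u, b u = 1 ∨ b u = -1) {W A : Finset V} (hA : A ⊆ W) :
    flipA b W (flipA b W A) = A := by
  classical
  ext u
  by_cases hu : u ∈ W
  · have h1 : sp (flipA b W (flipA b W A)) u = sp A u := by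
      rw [sp_flipA hb _ hu, sp_flipA hb _ hu, ← mul_assoc]
      rcases hb u with h | h <;> rw [h] <;> norm_num
    unfold sp at h1
    split_ifs at h1 with h2 h3 h3
    · exact iff_of_true h2 h3
    · norm_num at h1
    · norm_num at h1
    · exact iff_of_false h2 h3
  · exact iff_of_false (fun h => hu (flipA_subset _ _ _ h)) (fun h => hu (hA h))

theorem sum_flipA {β : Type*} [AddCommMonoid β] {b : V → ℝ} (hb : ∀ u, b u = 1 ∨ b u = -1)
    (W : Finset V) (f : Finset V → β) :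
    ∑ A ∈ W.powerset, f (flipA b W A) = ∑ A ∈ W.powerset, f A := by
  refine Finset.sum_nbij' (fun A => flipA b W A) (fun A => flipA b W A) ?_ ?_ ?_ ?_ ?_
  · intro A _
    exact Finset.mem_powerset.2 (flipA_subset _ _ _)
  · intro A _
    exact Finset.mem_powerset.2 (flipA_subset _ _ _)
  · intro A hA
    exact flipA_flipA hb (Finset.mem_powerset.1 hA)
  · intro A hA
    exact flipA_flipA hb (Finset.mem_powerset.1 hA)
  · intro A _
    rfl

/-! ### The weights in closed form -/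

/-- Edge factor of the weight. -/
noncomputable def efac (θ : ℝ) (A : Finset V) (e : Sym2 V) : ℝ :=
  if (Sym2.map (fun v => decide (v ∈ A)) e).IsDiag then (1 + θ) / 2 else (1 - θ) / 2

/-- The edge set of the window. -/
noncomputable def winEdges (G : SimpleGraph V) (W : Finset V) : Finset (Sym2 V) :=
  haveI := Classical.decRel G.Adj
  W.sym2.filter fun e => e ∈ G.edgeSet

theorem bw_eq (θ : ℝ) (W A : Finset V) :
    bw G θ W A = 1 / 2 * ∏ e ∈ winEdges G W, efac θ A e := by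
  unfold bw Crest.ProbabilityR.TreeIsing.isingWeight winEdges efac
  rfl

theorem efac_mk (θ : ℝ) (A : Finset V) (u v : V) :
    efac θ A s(u, v) = (1 + θ * (sp A u * sp A v)) / 2 := by
  unfold efac sp
  simp only [Sym2.map_mk, Sym2.mk_isDiag_iff]
  by_cases hu : u ∈ A <;> by_cases hv : v ∈ A <;> simp [hu, hv] <;> ring

theorem efac_pos {θ : ℝ} (h0 : 0 ≤ θ) (h1 : θ < 1) (A : Finset V) (e : Sym2 V) : 0 < efac θ A e := by
  unfold efac
  split_ifs <;> linarith

theorem bw_pos' {θ : ℝ} (h0 : 0 ≤ θ) (h1 : θ < 1) (W A : Finset V) : 0 < bw G θ W A := by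
  rw [bw_eq]
  exact mul_pos (by norm_num) (Finset.prod_pos fun e _ => efac_pos h0 h1 A e)

theorem gExp_pos (h : V → ℝ) (W A : Finset V) : 0 < gExp h W A := Real.exp_pos _

theorem gZ_pos' {θ : ℝ} (h0 : 0 ≤ θ) (h1 : θ < 1) (W : Finset V) (h : V → ℝ) : 0 < gZ G θ W h := by
  unfold gZ
  refine Finset.sum_pos (fun A _ => mul_pos (bw_pos' h0 h1 W A) (gExp_pos h W A)) ?_
  exact ⟨∅, Finset.mem_powerset.2 (Finset.empty_subset _)⟩

/-- The numerator of the Gibbs mean. -/
noncomputable def gN (G : SimpleGraph V) (θ : ℝ) (W : Finset V) (h : V → ℝ) (v : V) : ℝ :=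
  ∑ A ∈ W.powerset, bw G θ W A * gExp h W A * sp A v

theorem gm_eq (θ : ℝ) (W : Finset V) (h : V → ℝ) (v : V) :
    gm G θ W h v = gN G θ W h v / gZ G θ W h := rfl

theorem abs_gN_le {θ : ℝ} (h0 : 0 ≤ θ) (h1 : θ < 1) (W : Finset V) (h : V → ℝ) (v : V) :
    |gN G θ W h v| ≤ gZ G θ W h := by
  unfold gN gZ
  refine (Finset.abs_sum_le_sum_abs _ _).trans (Finset.sum_le_sum fun A _ => ?_)
  have h2 : |sp A v| = 1 := by
    rcases sp_sign A v with h | h <;> simp [h]
  rw [abs_mul, h2, mul_one, abs_of_pos (mul_pos (bw_pos' h0 h1 W A) (gExp_pos h W A))]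

theorem abs_gm_le' {θ : ℝ} (h0 : 0 ≤ θ) (h1 : θ < 1) (W : Finset V) (h : V → ℝ) (v : V) :
    |gm G θ W h v| ≤ 1 := by
  rw [gm_eq, abs_div, abs_of_pos (gZ_pos' h0 h1 W h)]
  exact div_le_one_of_le₀ (abs_gN_le h0 h1 W h v) (gZ_pos' h0 h1 W h).le

/-! ### Gauged weights -/

/-- Sign of an edge: `+1` on `S`, `-1` off `S`. -/
noncomputable def chiOf (S : Finset (Sym2 V)) (e : Sym2 V) : ℝ :=
  haveI := Classical.propDecidable
  if e ∈ S then 1 else -1

theorem chiOf_sign (S : Finset (Sym2 V)) (e : Sym2 V) : chiOf S e = 1 ∨ chiOf S e = -1 := by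
  classical
  unfold chiOf
  split_ifs <;> simp

/-- The edge weight with edge signs: `F` on `S`, `1 - F` off `S`. -/
theorem efac_flipA {θ : ℝ} {b : V → ℝ} (hb : ∀ u, b u = 1 ∨ b u = -1) {W : Finset V}
    {χ : Sym2 V → ℝ} (hχ : ∀ u v, G.Adj u v → χ s(u, v) = b u * b v)
    (A : Finset V) {e : Sym2 V} (he : e ∈ winEdges G W) :
    efac θ (flipA b W A) e = (1 + χ e * (2 * efac θ A e - 1)) / 2 := by
  classical
  induction e using Sym2.ind with
  | _ u v =>
    have he' : s(u, v) ∈ W.sym2 ∧ s(u, v) ∈ G.edgeSet := by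
      unfold winEdges at he
      simpa using he
    have hu : u ∈ W := by
      have := he'.1
      rw [Finset.mk_mem_sym2_iff] at this
      exact this.1
    have hv : v ∈ W := by
      have := he'.1
      rw [Finset.mk_mem_sym2_iff] at this
      exact this.2
    have hadj : G.Adj u v := he'.2
    rw [efac_mk, efac_mk, hχ u v hadj, sp_flipA hb A hu, sp_flipA hb A hv]
    ring

/-- The gauged weight. -/
theorem bw_flipA {θ : ℝ} {b : V → ℝ} (hb : ∀ u, b u = 1 ∨ b u = -1) {W : Finset V}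
    {S : Finset (Sym2 V)} (hχ : ∀ u v, G.Adj u v → chiOf S s(u, v) = b u * b v) (A : Finset V)
    (hS : S ⊆ winEdges G W) :
    bw G θ W (flipA b W A) =
      1 / 2 * ((∏ e ∈ S, efac θ A e) * ∏ e ∈ winEdges G W \ S, (1 - efac θ A e)) := by
  classical
  rw [bw_eq]
  congr 1
  rw [← Finset.prod_sdiff hS, mul_comm]
  congr 1
  · refine Finset.prod_congr rfl fun e he => ?_
    rw [efac_flipA hb hχ A (hS he)]
    have : chiOf S e = 1 := by
      unfold chiOf
      rw [if_pos he]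
    rw [this]
    ring
  · refine Finset.prod_congr rfl fun e he => ?_
    rw [efac_flipA hb hχ A (Finset.mem_sdiff.1 he).1]
    have : chiOf S e = -1 := by
      unfold chiOf
      rw [if_neg (Finset.mem_sdiff.1 he).2]
    rw [this]
    ring

/-- Expansion of the weight at `θ = r θ'` over the edge signs. -/
theorem bw_mixture {θ θ' r : ℝ} (hr : θ = r * θ') (W A : Finset V) :
    bw G θ W A = ∑ S ∈ (winEdges G W).powerset,
      ((1 + r) / 2) ^ S.card * ((1 - r) / 2) ^ (winEdges G W \ S).card *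
        (1 / 2 * ((∏ e ∈ S, efac θ' A e) * ∏ e ∈ winEdges G W \ S, (1 - efac θ' A e))) := by
  classical
  rw [bw_eq]
  have hf : ∀ e, efac θ A e = (1 + r) / 2 * efac θ' A e + (1 - r) / 2 * (1 - efac θ' A e) := by
    intro e
    unfold efac
    split_ifs <;> rw [hr] <;> ring
  simp_rw [hf]
  rw [Finset.prod_add, Finset.mul_sum]
  refine Finset.sum_congr rfl fun S _ => ?_
  rw [Finset.prod_mul_distrib, Finset.prod_mul_distrib, Finset.prod_const, Finset.prod_const]
  ring

theorem sum_mix_weights (r : ℝ) (E : Finset (Sym2 V)) :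
    ∑ S ∈ E.powerset, ((1 + r) / 2) ^ S.card * ((1 - r) / 2) ^ (E \ S).card = 1 := by
  classical
  have := Finset.prod_add (fun _ : Sym2 V => (1 + r) / 2) (fun _ : Sym2 V => (1 - r) / 2) E
  simp only [Finset.prod_const] at this
  rw [← this]
  have h : (1 + r) / 2 + (1 - r) / 2 = 1 := by ring
  rw [h, one_pow]

/-- Part A: mixture, gauge and Jensen. -/
theorem gibbs_mixture_jensen (hT : G.IsTree) (W : Finset V) {θ θ' : ℝ} (h0 : 0 ≤ θ) (hθθ' : θ ≤ θ')
    (h1 : θ' < 1) {Φ : ℝ → ℝ} (hconv : ConvexOn ℝ (Icc (-1) 1) Φ) (hev : ∀ x, Φ (-x) = Φ x)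
    {v : V} (hv : v ∈ W) :
    ∃ (X : Finset (Finset (Sym2 V))) (p : Finset (Sym2 V) → ℝ) (b : Finset (Sym2 V) → V → ℝ),
      (∀ x, 0 ≤ p x) ∧ ∑ x ∈ X, p x = 1 ∧ (∀ x u, b x u = 1 ∨ b x u = -1) ∧
      ∀ h : V → ℝ, gZ G θ W h * Φ (gm G θ W h v) ≤
        ∑ x ∈ X, p x * (gZ G θ' W (fun u => b x u * h u) * Φ (gm G θ' W (fun u => b x u * h u) v)) := by
  classical
  have h0' : 0 ≤ θ' := h0.trans hθθ'
  have h1' : θ < 1 := lt_of_le_of_lt hθθ' h1
  -- the ratio `r`
  obtain ⟨r, hr0, hr1, hr⟩ : ∃ r : ℝ, 0 ≤ r ∧ r ≤ 1 ∧ θ = r * θ' := by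
    rcases h0'.eq_or_lt with h | h
    · refine ⟨0, le_rfl, zero_le_one, ?_⟩
      have : θ = 0 := le_antisymm (hθθ'.trans h.symm.le) h0
      rw [this, zero_mul]
    · refine ⟨θ / θ', div_nonneg h0 h0', (div_le_one h).2 hθθ', ?_⟩
      field_simp
  set E := winEdges G W with hE
  -- gauges
  have hgauge : ∀ S : Finset (Sym2 V), ∃ b : V → ℝ, (∀ u, b u = 1 ∨ b u = -1) ∧
      ∀ u v, G.Adj u v → chiOf S s(u, v) = b u * b v := fun S =>
    exists_gauge hT (chiOf S) (chiOf_sign S)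
  choose b hb hbχ using hgauge
  set p : Finset (Sym2 V) → ℝ := fun S => ((1 + r) / 2) ^ S.card * ((1 - r) / 2) ^ (E \ S).card with hp
  have hp0 : ∀ S, 0 ≤ p S := fun S => by
    have h3 : 0 ≤ (1 + r) / 2 := by linarith
    have h4 : 0 ≤ (1 - r) / 2 := by linarith
    positivity
  refine ⟨E.powerset, p, b, hp0, sum_mix_weights r E, hb, ?_⟩
  intro h
  -- gauge transformation of the partition function and numerator
  have hW : ∀ S ∈ E.powerset, ∀ A : Finset V,
      (1 / 2 * ((∏ e ∈ S, efac θ' A e) * ∏ e ∈ E \ S, (1 - efac θ' A e))) * gExp h W A =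
        bw G θ' W (flipA (b S) W A) * gExp (fun u => b S u * h u) W (flipA (b S) W A) := by
    intro S hS A
    rw [bw_flipA (hb S) (hbχ S) A (Finset.mem_powerset.1 hS)]
    congr 1
    unfold gExp
    congr 1
    refine Finset.sum_congr rfl fun u hu => ?_
    rw [sp_flipA (hb S) A hu]
    have : b S u * b S u = 1 := by
      rcases hb S u with h' | h' <;> rw [h'] <;> norm_num
    calc h u * sp A u = (b S u * b S u) * (h u * sp A u) := by rw [this, one_mul]
      _ = _ := by ring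
  set Z' : Finset (Sym2 V) → ℝ := fun S => gZ G θ' W (fun u => b S u * h u) with hZ'
  set m' : Finset (Sym2 V) → ℝ := fun S => gm G θ' W (fun u => b S u * h u) v with hm'
  have hZpos : ∀ S, 0 < Z' S := fun S => gZ_pos' h0' h1 W _
  have hZ : gZ G θ W h = ∑ S ∈ E.powerset, p S * Z' S := by
    unfold gZ
    simp_rw [bw_mixture hr W, Finset.sum_mul]
    rw [Finset.sum_comm]
    refine Finset.sum_congr rfl fun S hS => ?_
    have hflip : Z' S = ∑ A ∈ W.powerset,
        bw G θ' W (flipA (b S) W A) * gExp (fun u => b S u * h u) W (flipA (b S) W A) :=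
      (sum_flipA (hb S) W (fun A => bw G θ' W A * gExp (fun u => b S u * h u) W A)).symm
    rw [hflip, Finset.mul_sum]
    refine Finset.sum_congr rfl fun A _ => ?_
    rw [← hW S hS A]
    rw [hp]
    ring
  have hN : gN G θ W h v = ∑ S ∈ E.powerset, p S * (Z' S * (b S v * m' S)) := by
    unfold gN
    simp_rw [bw_mixture hr W, Finset.sum_mul]
    rw [Finset.sum_comm]
    refine Finset.sum_congr rfl fun S hS => ?_
    have hm'' : Z' S * m' S = gN G θ' W (fun u => b S u * h u) v := by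
      rw [hm', hZ']
      simp only
      rw [gm_eq]
      field_simp [(gZ_pos' h0' h1 W (fun u => b S u * h u)).ne']
    have : Z' S * (b S v * m' S) = b S v * (Z' S * m' S) := by ring
    rw [this, hm'']
    have hflip : gN G θ' W (fun u => b S u * h u) v = ∑ A ∈ W.powerset,
        bw G θ' W (flipA (b S) W A) * gExp (fun u => b S u * h u) W (flipA (b S) W A) *
          sp (flipA (b S) W A) v :=
      (sum_flipA (hb S) W (fun A => bw G θ' W A * gExp (fun u => b S u * h u) W A * sp A v)).symm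
    rw [hflip, Finset.mul_sum, Finset.mul_sum]
    refine Finset.sum_congr rfl fun A _ => ?_
    rw [sp_flipA (hb S) A hv]
    have h3 : b S v * b S v = 1 := by
      rcases hb S v with h' | h' <;> rw [h'] <;> norm_num
    have h4 := hW S hS A
    calc _ = p S * ((1 / 2 * ((∏ e ∈ S, efac θ' A e) * ∏ e ∈ E \ S, (1 - efac θ' A e))) * gExp h W A) *
          sp A v := by rw [hp]; ring
      _ = p S * (bw G θ' W (flipA (b S) W A) * gExp (fun u => b S u * h u) W (flipA (b S) W A)) *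
          sp A v := by rw [h4]
      _ = p S * (bw G θ' W (flipA (b S) W A) * gExp (fun u => b S u * h u) W (flipA (b S) W A)) *
          ((b S v * b S v) * sp A v) := by rw [h3, one_mul]
      _ = _ := by ring
  -- Jensen
  have hZθ : 0 < gZ G θ W h := gZ_pos' h0 h1' W h
  set x : Finset (Sym2 V) → ℝ := fun S => b S v * m' S with hx
  have hx1 : ∀ S, x S ∈ Icc (-1 : ℝ) 1 := by
    intro S
    have h2 : |m' S| ≤ 1 := abs_gm_le' h0' h1 W _ v
    have h3 : |x S| ≤ 1 := by
      rw [hx]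
      simp only
      rw [abs_mul]
      rcases hb S v with h' | h' <;> rw [h'] <;> simpa using h2
    exact abs_le.1 h3
  have hΦx : ∀ S, Φ (x S) = Φ (m' S) := by
    intro S
    rw [hx]
    simp only
    rcases hb S v with h' | h' <;> rw [h']
    · rw [one_mul]
    · rw [neg_one_mul, hev]
  set w : Finset (Sym2 V) → ℝ := fun S => p S * Z' S / gZ G θ W h with hw
  have hw0 : ∀ S ∈ E.powerset, 0 ≤ w S := fun S _ =>
    div_nonneg (mul_nonneg (hp0 S) (hZpos S).le) hZθ.le
  have hw1 : ∑ S ∈ E.powerset, w S = 1 := by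
    rw [hw]
    simp only
    rw [← Finset.sum_div, ← hZ, div_self hZθ.ne']
  have hjen := hconv.map_sum_le hw0 hw1 (fun S _ => hx1 S)
  have hmean : ∑ S ∈ E.powerset, w S • x S = gm G θ W h v := by
    rw [gm_eq, hN, Finset.sum_div]
    refine Finset.sum_congr rfl fun S _ => ?_
    rw [hw, smul_eq_mul]
    simp only
    rw [hx]
    simp only
    ring
  rw [hmean] at hjen
  calc gZ G θ W h * Φ (gm G θ W h v)
      ≤ gZ G θ W h * ∑ S ∈ E.powerset, w S • Φ (x S) :=
        mul_le_mul_of_nonneg_left hjen hZθ.le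
    _ = ∑ S ∈ E.powerset, p S * (Z' S * Φ (m' S)) := by
        rw [Finset.mul_sum]
        refine Finset.sum_congr rfl fun S _ => ?_
        rw [hw, smul_eq_mul, hΦx]
        simp only
        field_simp

/-! ### Part B: the flip of the noises -/

open scoped ENNReal unitInterval

/-- The signal of the ring `(v,n)`. -/
noncomputable def ringX (κ : ℝ → ℝ) (ω : Om V) (v : V) (n : ℕ) : ℝ :=
  κ (ringT ω v n) * (2 * (ω.2 (v, n) : ℝ) - 1)

theorem abs_ringX_lt {κ : ℝ → ℝ} (hκ : IsStrength κ) (ω : Om V) (v : V) (n : ℕ) :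
    |ringX κ ω v n| < 1 := by
  unfold ringX
  rw [abs_mul, abs_of_nonneg (hκ.nonneg _)]
  have h1 : |2 * (ω.2 (v, n) : ℝ) - 1| ≤ 1 := by
    have h0 := (ω.2 (v, n)).2.1
    have h2 := (ω.2 (v, n)).2.2
    rw [abs_le]
    constructor <;> linarith
  have h2 := hκ.le (ringT ω v n)
  have h3 := hκ.nonneg (ringT ω v n)
  nlinarith [abs_nonneg (2 * (ω.2 (v, n) : ℝ) - 1)]

theorem artanh_neg_eq {x : ℝ} (hx : |x| < 1) : Real.artanh (-x) = -Real.artanh x := by
  have h := abs_lt.1 hx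
  have h1 : x ∈ Icc (-1 : ℝ) 1 := ⟨h.1.le, h.2.le⟩
  have h2 : -x ∈ Icc (-1 : ℝ) 1 := ⟨by linarith, by linarith⟩
  rw [Real.artanh_eq_half_log h1, Real.artanh_eq_half_log h2]
  have h3 : (1 + -x) / (1 - -x) = ((1 + x) / (1 - x))⁻¹ := by
    rw [inv_div]; ring_nf
  rw [h3, Real.log_inv]
  ring

theorem one_add_eq_exp_artanh {x s : ℝ} (hx : |x| < 1) (hs : s = 1 ∨ s = -1) :
    1 + x * s = Real.sqrt (1 - x ^ 2) * Real.exp (Real.artanh x * s) := by
  have key : ∀ y : ℝ, |y| < 1 → 1 + y = Real.sqrt (1 - y ^ 2) * Real.exp (Real.artanh y) := by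
    intro y hy
    have h := abs_lt.1 hy
    rw [Real.exp_artanh ⟨h.1, h.2⟩, ← Real.sqrt_mul (by nlinarith)]
    have h1 : (1 - y ^ 2) * ((1 + y) / (1 - y)) = (1 + y) ^ 2 := by
      have : 1 - y ≠ 0 := by linarith
      field_simp
      ring
    rw [h1, Real.sqrt_sq (by linarith)]
  rcases hs with rfl | rfl
  · simpa using key x hx
  · have h := key (-x) (by rwa [abs_neg])
    rw [artanh_neg_eq hx] at h
    have h2 : (-x) ^ 2 = x ^ 2 := by ring
    rw [h2] at h
    have e1 : 1 + x * -1 = 1 + -x := by ring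
    have e2 : Real.artanh x * -1 = -Real.artanh x := by ring
    rw [e1, e2]
    exact h

/-- The normalising factor of the likelihood of one vertex. -/
noncomputable def cV (κ : ℝ → ℝ) (ω : Om V) (τ : ℝ) (v : V) : ℝ :=
  haveI := Classical.propDecidable
  ∏ n ∈ Finset.range ⌈τ⌉₊, if before ω v n τ then Real.sqrt (1 - ringX κ ω v n ^ 2) else 1

theorem cV_nonneg (κ : ℝ → ℝ) (ω : Om V) (τ : ℝ) (v : V) : 0 ≤ cV κ ω τ v := by
  classical
  unfold cV
  refine Finset.prod_nonneg fun n _ => ?_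
  split_ifs
  · exact Real.sqrt_nonneg _
  · exact zero_le_one

theorem likV_eq {κ : ℝ → ℝ} (hκ : IsStrength κ) (ω : Om V) (τ : ℝ) (v : V) {s : ℝ}
    (hs : s = 1 ∨ s = -1) : likV κ ω τ v s = cV κ ω τ v * Real.exp (field0 κ ω τ v * s) := by
  classical
  unfold likV cV field0
  rw [Finset.sum_mul, Real.exp_sum, ← Finset.prod_mul_distrib]
  refine Finset.prod_congr rfl fun n _ => ?_
  by_cases hb : before ω v n τ
  · rw [if_pos hb, if_pos hb, if_pos hb]
    exact one_add_eq_exp_artanh (abs_ringX_lt hκ ω v n) hs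
  · rw [if_neg hb, if_neg hb, if_neg hb]
    simp

/-- The product of the normalising factors. -/
noncomputable def cW (κ : ℝ → ℝ) (W : Finset V) (ω : Om V) (τ : ℝ) : ℝ :=
  ∏ v ∈ W, cV κ ω τ v

theorem cW_nonneg (κ : ℝ → ℝ) (W : Finset V) (ω : Om V) (τ : ℝ) : 0 ≤ cW κ W ω τ :=
  Finset.prod_nonneg fun v _ => cV_nonneg κ ω τ v

/-- The likelihood is the partition function of the undriven fields, up to a factor that does not
depend on the spins. -/
theorem lik_eq {κ : ℝ → ℝ} (hκ : IsStrength κ) (θ : ℝ) (W : Finset V) (ω : Om V) (τ : ℝ) :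
    lik G θ κ W ω τ = cW κ W ω τ * gZ G θ W (field0W κ W ω τ) := by
  unfold lik gZ
  rw [Finset.mul_sum]
  refine Finset.sum_congr rfl fun A _ => ?_
  have h1 : ∏ v ∈ W, likV κ ω τ v (sp A v) = cW κ W ω τ * gExp (field0W κ W ω τ) W A := by
    unfold cW gExp
    rw [Real.exp_sum, ← Finset.prod_mul_distrib]
    refine Finset.prod_congr rfl fun v hv => ?_
    rw [likV_eq hκ ω τ v (sp_sign A v)]
    unfold field0W
    rw [if_pos hv]
  rw [h1]
  ring

/-- The flip of the noises at the vertices with `b = -1`. -/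
noncomputable def flipF (b : V → ℝ) (x : V × ℕ → Lab) : V × ℕ → Lab :=
  haveI := Classical.propDecidable
  fun i => if b i.1 = 1 then x i else unitInterval.symm (x i)

/-- The flip on labels. -/
noncomputable def flipOm (b : V → ℝ) (ω : Om V) : Om V := (ω.1, flipF b ω.2)

theorem measurable_flipF (b : V → ℝ) : Measurable (flipF b) := by
  classical
  refine measurable_pi_iff.2 fun i => ?_
  unfold flipF
  by_cases h : b i.1 = 1
  · simp only [if_pos h]
    exact measurable_pi_apply i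
  · simp only [if_neg h]
    exact unitInterval.measurable_symm.comp (measurable_pi_apply i)

theorem map_flipF (b : V → ℝ) : (lam (V × ℕ)).map (flipF b) = lam (V × ℕ) := by
  classical
  unfold lam Crest.ProbabilityR.Labels.labelMeasure
  refine Measure.eq_infinitePi _ fun s t ht => ?_
  rw [Measure.map_apply (measurable_flipF b) (MeasurableSet.pi s.countable_toSet fun i _ => ht i)]
  let t' : V × ℕ → Set Lab := fun i =>
    haveI := Classical.propDecidable
    if b i.1 = 1 then t i else unitInterval.symm ⁻¹' t i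
  have ht' : ∀ i, MeasurableSet (t' i) := by
    intro i
    simp only [t']
    split_ifs
    · exact ht i
    · exact unitInterval.measurable_symm (ht i)
  have hpre : flipF b ⁻¹' (Set.pi s t) = Set.pi s t' := by
    ext x
    simp only [Set.mem_preimage, Set.mem_pi, t', flipF]
    refine forall₂_congr fun i _ => ?_
    split_ifs <;> rfl
  rw [hpre, Measure.infinitePi_pi _ (fun i _ => ht' i)]
  refine Finset.prod_congr rfl fun i _ => ?_
  simp only [t']
  split_ifs
  · rfl
  · exact unitInterval.measurePreserving_symm.measure_preimage (ht i).nullMeasurableSet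

theorem measurable_flipOm (b : V → ℝ) : Measurable (flipOm b : Om V → Om V) :=
  measurable_fst.prodMk ((measurable_flipF b).comp measurable_snd)

theorem map_flipOm (b : V → ℝ) : (PP V).map (flipOm b) = PP V := by
  have hact : (flipOm b : Om V → Om V) = Prod.map id (flipF b) := by
    funext ω
    rfl
  have : IsProbabilityMeasure (lam (V × ℕ)) := by
    unfold lam Crest.ProbabilityR.Labels.labelMeasure
    infer_instance
  rw [hact, PP, ← Measure.map_prod_map _ _ measurable_id (measurable_flipF b), map_flipF, Measure.map_id]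

theorem ringX_flipOm {κ : ℝ → ℝ} {b : V → ℝ} (hb : ∀ u, b u = 1 ∨ b u = -1) (ω : Om V) (v : V) (n : ℕ) :
    ringX κ (flipOm b ω) v n = b v * ringX κ ω v n := by
  classical
  unfold ringX
  have hT : ringT (flipOm b ω) v n = ringT ω v n := rfl
  rw [hT]
  show κ (ringT ω v n) * (2 * ((flipF b ω.2 (v, n) : Lab) : ℝ) - 1) = _
  rcases hb v with h | h
  · have h1 : flipF b ω.2 (v, n) = ω.2 (v, n) := if_pos h
    rw [h1, h]
    ring
  · have h1 : flipF b ω.2 (v, n) = unitInterval.symm (ω.2 (v, n)) :=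
      if_neg (by show ¬ b v = 1; rw [h]; norm_num)
    rw [h1, unitInterval.coe_symm_eq, h]
    ring

theorem field0_flipOm {κ : ℝ → ℝ} (hκ : IsStrength κ) {b : V → ℝ} (hb : ∀ u, b u = 1 ∨ b u = -1)
    (ω : Om V) (τ : ℝ) (v : V) : field0 κ (flipOm b ω) τ v = b v * field0 κ ω τ v := by
  classical
  have hbef : ∀ n, before (flipOm b ω) v n τ ↔ before ω v n τ := fun n => Iff.rfl
  have hX : ∀ n, κ (ringT (flipOm b ω) v n) * (2 * ((flipOm b ω).2 (v, n) : ℝ) - 1) =
      b v * ringX κ ω v n := fun n => ringX_flipOm hb ω v n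
  unfold field0
  rw [Finset.mul_sum]
  refine Finset.sum_congr rfl fun n _ => ?_
  by_cases hn : before ω v n τ
  · rw [if_pos ((hbef n).2 hn), if_pos hn, hX]
    change Real.artanh (b v * ringX κ ω v n) = b v * Real.artanh (ringX κ ω v n)
    rcases hb v with h | h
    · rw [h, one_mul, one_mul]
    · rw [h, neg_one_mul, neg_one_mul, artanh_neg_eq (abs_ringX_lt hκ ω v n)]
  · rw [if_neg (fun h => hn ((hbef n).1 h)), if_neg hn, mul_zero]

theorem field0W_flipOm {κ : ℝ → ℝ} (hκ : IsStrength κ) {b : V → ℝ} (hb : ∀ u, b u = 1 ∨ b u = -1)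
    (W : Finset V) (ω : Om V) (τ : ℝ) :
    field0W κ W (flipOm b ω) τ = fun u => b u * field0W κ W ω τ u := by
  funext u
  unfold field0W
  by_cases hu : u ∈ W
  · rw [if_pos hu, if_pos hu, field0_flipOm hκ hb]
  · rw [if_neg hu, if_neg hu, mul_zero]

theorem cW_flipOm {κ : ℝ → ℝ} {b : V → ℝ} (hb : ∀ u, b u = 1 ∨ b u = -1)
    (W : Finset V) (ω : Om V) (τ : ℝ) : cW κ W (flipOm b ω) τ = cW κ W ω τ := by
  classical
  unfold cW cV
  refine Finset.prod_congr rfl fun v _ => Finset.prod_congr rfl fun n _ => ?_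
  have hbef : before (flipOm b ω) v n τ ↔ before ω v n τ := Iff.rfl
  by_cases hn : before ω v n τ
  · rw [if_pos (hbef.2 hn), if_pos hn, ringX_flipOm hb, mul_pow]
    have : b v ^ 2 = 1 := by rcases hb v with h | h <;> rw [h] <;> norm_num
    rw [this, one_mul]
  · rw [if_neg (fun h => hn (hbef.1 h)), if_neg hn]

/-! ### Measurability -/

theorem measurable_artanh' : Measurable Real.artanh := by
  unfold Real.artanh
  fun_prop

theorem measurable_lab1 (v : V) (n : ℕ) : Measurable fun ω : Om V => (ω.1 (v, n) : ℝ) :=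
  measurable_subtype_coe.comp ((measurable_pi_apply (v, n)).comp measurable_fst)

theorem measurable_lab2 (v : V) (n : ℕ) : Measurable fun ω : Om V => (ω.2 (v, n) : ℝ) :=
  measurable_subtype_coe.comp ((measurable_pi_apply (v, n)).comp measurable_snd)

theorem measurable_ringT (v : V) (n : ℕ) : Measurable fun ω : Om V => ringT ω v n := by
  unfold ringT
  exact measurable_const.add (measurable_const.mul (measurable_lab1 v n))

theorem measurableSet_before (v : V) (n : ℕ) (τ : ℝ) : MeasurableSet {ω : Om V | before ω v n τ} :=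
  (measurableSet_lt (measurable_lab1 v n) measurable_const).inter
    (measurableSet_lt (measurable_ringT v n) measurable_const)

theorem measurable_ringX {κ : ℝ → ℝ} (hκ : Measurable κ) (v : V) (n : ℕ) :
    Measurable fun ω : Om V => ringX κ ω v n := by
  unfold ringX
  exact (hκ.comp (measurable_ringT v n)).mul
    ((measurable_const.mul (measurable_lab2 v n)).sub measurable_const)

theorem measurable_field0 {κ : ℝ → ℝ} (hκ : Measurable κ) (τ : ℝ) (v : V) :
    Measurable fun ω : Om V => field0 κ ω τ v := by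
  classical
  unfold field0
  refine Finset.measurable_fun_sum _ fun n _ => ?_
  exact Measurable.ite (measurableSet_before v n τ)
    (measurable_artanh'.comp (measurable_ringX hκ v n)) measurable_const

theorem measurable_field0W {κ : ℝ → ℝ} (hκ : Measurable κ) (W : Finset V) (τ : ℝ) :
    Measurable fun ω : Om V => field0W κ W ω τ := by
  refine measurable_pi_iff.2 fun v => ?_
  unfold field0W
  by_cases hv : v ∈ W
  · simp only [if_pos hv]
    exact measurable_field0 hκ τ v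
  · simp only [if_neg hv]
    exact measurable_const

theorem measurable_cW {κ : ℝ → ℝ} (hκ : Measurable κ) (W : Finset V) (τ : ℝ) :
    Measurable fun ω : Om V => cW κ W ω τ := by
  classical
  unfold cW cV
  refine Finset.measurable_fun_prod _ fun v _ => Finset.measurable_fun_prod _ fun n _ => ?_
  refine Measurable.ite (measurableSet_before v n τ) ?_ measurable_const
  exact Real.continuous_sqrt.measurable.comp (measurable_const.sub ((measurable_ringX hκ v n).pow_const 2))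

theorem measurable_gExp (W A : Finset V) : Measurable fun h : V → ℝ => gExp h W A := by
  unfold gExp
  refine Real.measurable_exp.comp (Finset.measurable_fun_sum _ fun v _ => ?_)
  exact (measurable_pi_apply v).mul measurable_const

theorem measurable_gZ (θ : ℝ) (W : Finset V) : Measurable fun h : V → ℝ => gZ G θ W h := by
  unfold gZ
  exact Finset.measurable_fun_sum _ fun A _ => measurable_const.mul (measurable_gExp W A)

theorem measurable_gN (θ : ℝ) (W : Finset V) (v : V) : Measurable fun h : V → ℝ => gN G θ W h v := by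
  unfold gN
  exact Finset.measurable_fun_sum _ fun A _ =>
    (measurable_const.mul (measurable_gExp W A)).mul measurable_const

theorem measurable_gm (θ : ℝ) (W : Finset V) (v : V) : Measurable fun h : V → ℝ => gm G θ W h v :=
  (measurable_gN θ W v).div (measurable_gZ θ W)

/-! ### The monotonicity -/

/-- `integral_convex_mono` from the planted formula (`lintegral_field_eq`) and the measurability of
`mW`, for a nonnegative `Φ` on `[-1,1]`: the `lintegral` form. -/
theorem lintegral_convex_mono (hT : G.IsTree) {W : Finset V} {θ θ' : ℝ} {κ : ℝ → ℝ}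
    (hθ0 : 0 ≤ θ) (hθθ' : θ ≤ θ') (hθ1 : θ' < 1) (hκ : IsStrength κ) (τ : ℝ) {Φ : ℝ → ℝ}
    (hΦ : ConvexOn ℝ (Icc (-1) 1) Φ) (hev : ∀ x, Φ (-x) = Φ x) (hc : ContinuousOn Φ (Icc (-1) 1))
    (hΦ0 : ∀ x ∈ Icc (-1 : ℝ) 1, 0 ≤ Φ x) {v : V} (hv : v ∈ W)
    (hfe : ∀ (θ'' : ℝ), 0 ≤ θ'' → θ'' < 1 → ∀ {Ψ : (V → ℝ) → ℝ≥0∞}, Measurable Ψ →
      ∫⁻ ω, Ψ (field G θ'' κ W ω τ) ∂(PP V) =
        ∫⁻ ω, Ψ (field0W κ W ω τ) * ENNReal.ofReal (lik G θ'' κ W ω τ) ∂(PP V)) :
    ∫⁻ ω, ENNReal.ofReal (Φ (mW G θ κ W ω τ v)) ∂(PP V) ≤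
      ∫⁻ ω, ENNReal.ofReal (Φ (mW G θ' κ W ω τ v)) ∂(PP V) := by
  classical
  have h0' : 0 ≤ θ' := hθ0.trans hθθ'
  have h1' : θ < 1 := lt_of_le_of_lt hθθ' hθ1
  -- continuous extension
  let Φc : ℝ → ℝ := fun x => Φ (projIcc (-1 : ℝ) 1 (by norm_num) x)
  have hΦc : Continuous Φc :=
    (continuousOn_iff_continuous_domRestrict.1 hc).comp continuous_projIcc
  have hΦceq : ∀ x ∈ Icc (-1 : ℝ) 1, Φc x = Φ x := by
    intro x hx
    simp only [Φc]
    rw [projIcc_of_mem (by norm_num) hx]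
  have hmem : ∀ θ'' , 0 ≤ θ'' → θ'' < 1 → ∀ h : V → ℝ, gm G θ'' W h v ∈ Icc (-1 : ℝ) 1 :=
    fun θ'' h1 h2 h => abs_le.1 (abs_gm_le' h1 h2 W h v)
  -- the two functionals
  let Ψ : ℝ → (V → ℝ) → ℝ≥0∞ := fun θ'' h => ENNReal.ofReal (Φc (gm G θ'' W h v))
  have hΨm : ∀ θ'', Measurable (Ψ θ'') := fun θ'' =>
    ENNReal.measurable_ofReal.comp (hΦc.measurable.comp (measurable_gm θ'' W v))
  have hL : ∀ θ'', 0 ≤ θ'' → θ'' < 1 →
      ∫⁻ ω, ENNReal.ofReal (Φ (mW G θ'' κ W ω τ v)) ∂(PP V) =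
        ∫⁻ ω, Ψ θ'' (field0W κ W ω τ) * ENNReal.ofReal (lik G θ'' κ W ω τ) ∂(PP V) := by
    intro θ'' h1 h2
    rw [← hfe θ'' h1 h2 (hΨm θ'')]
    refine lintegral_congr fun ω => ?_
    simp only [Ψ, mW]
    rw [hΦceq _ (hmem θ'' h1 h2 _)]
  rw [hL θ hθ0 h1', hL θ' h0' hθ1]
  obtain ⟨X, p, b, hp0, hp1, hb, hjen⟩ := gibbs_mixture_jensen hT W hθ0 hθθ' hθ1 hΦ hev hv
  -- the integrand on the right
  set Gf : Om V → ℝ≥0∞ := fun ω => Ψ θ' (field0W κ W ω τ) * ENNReal.ofReal (lik G θ' κ W ω τ) with hGf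
  have hGm : Measurable Gf := by
    refine ((hΨm θ').comp (measurable_field0W hκ.meas W τ)).mul ?_
    refine ENNReal.measurable_ofReal.comp ?_
    have : (fun ω => lik G θ' κ W ω τ) =
        fun ω => cW κ W ω τ * gZ G θ' W (field0W κ W ω τ) := by
      funext ω; exact lik_eq hκ θ' W ω τ
    rw [this]
    exact (measurable_cW hκ.meas W τ).mul ((measurable_gZ θ' W).comp (measurable_field0W hκ.meas W τ))
  have hGval : ∀ ω, Gf ω = ENNReal.ofReal (cW κ W ω τ *
      (gZ G θ' W (field0W κ W ω τ) * Φ (gm G θ' W (field0W κ W ω τ) v))) := by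
    intro ω
    simp only [hGf, Ψ]
    rw [hΦceq _ (hmem θ' h0' hθ1 _), lik_eq hκ θ' W ω τ,
      ← ENNReal.ofReal_mul (hΦ0 _ (hmem θ' h0' hθ1 _))]
    congr 1
    ring
  -- pointwise bound
  have hpt : ∀ ω, Ψ θ (field0W κ W ω τ) * ENNReal.ofReal (lik G θ κ W ω τ) ≤
      ∑ x ∈ X, ENNReal.ofReal (p x) * Gf (flipOm (b x) ω) := by
    intro ω
    set h0w := field0W κ W ω τ with hh0
    have hC := cW_nonneg κ W ω τ
    have hlhs : Ψ θ h0w * ENNReal.ofReal (lik G θ κ W ω τ) =
        ENNReal.ofReal (cW κ W ω τ * (gZ G θ W h0w * Φ (gm G θ W h0w v))) := by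
      simp only [Ψ]
      rw [hΦceq _ (hmem θ hθ0 h1' _), lik_eq hκ θ W ω τ,
        ← ENNReal.ofReal_mul (hΦ0 _ (hmem θ hθ0 h1' _))]
      congr 1
      ring
    rw [hlhs]
    have hterm : ∀ x ∈ X, ENNReal.ofReal (p x) * Gf (flipOm (b x) ω) =
        ENNReal.ofReal (p x * (cW κ W ω τ *
          (gZ G θ' W (fun u => b x u * h0w u) * Φ (gm G θ' W (fun u => b x u * h0w u) v)))) := by
      intro x _
      rw [hGval, field0W_flipOm hκ (hb x), cW_flipOm (hb x), ENNReal.ofReal_mul (hp0 x)]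
    rw [Finset.sum_congr rfl hterm, ← ENNReal.ofReal_sum_of_nonneg]
    · refine ENNReal.ofReal_le_ofReal ?_
      have := mul_le_mul_of_nonneg_left (hjen h0w) hC
      refine this.trans (le_of_eq ?_)
      rw [Finset.mul_sum]
      refine Finset.sum_congr rfl fun x _ => ?_
      ring
    · intro x _
      refine mul_nonneg (hp0 x) (mul_nonneg hC (mul_nonneg (gZ_pos' h0' hθ1 W _).le ?_))
      exact hΦ0 _ (hmem θ' h0' hθ1 _)
  calc ∫⁻ ω, Ψ θ (field0W κ W ω τ) * ENNReal.ofReal (lik G θ κ W ω τ) ∂(PP V)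
      ≤ ∫⁻ ω, ∑ x ∈ X, ENNReal.ofReal (p x) * Gf (flipOm (b x) ω) ∂(PP V) := lintegral_mono hpt
    _ = ∑ x ∈ X, ∫⁻ ω, ENNReal.ofReal (p x) * Gf (flipOm (b x) ω) ∂(PP V) :=
        lintegral_finsetSum _ fun x _ =>
          measurable_const.mul (hGm.comp (measurable_flipOm (b x)))
    _ = ∑ x ∈ X, ENNReal.ofReal (p x) * ∫⁻ ω, Gf ω ∂(PP V) := by
        refine Finset.sum_congr rfl fun x _ => ?_
        have hm' : Measurable fun ω => Gf (flipOm (b x) ω) := hGm.comp (measurable_flipOm (b x))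
        rw [lintegral_const_mul _ hm']
        congr 1
        have := lintegral_map (μ := PP V) hGm (measurable_flipOm (b x))
        rw [map_flipOm] at this
        exact this.symm
    _ = ∫⁻ ω, Gf ω ∂(PP V) := by
        rw [← Finset.sum_mul, ← ENNReal.ofReal_sum_of_nonneg (fun x _ => hp0 x), hp1]
        simp

/-- `integral_convex_mono` from the planted formula and the measurability of `mW`. -/
theorem integral_convex_mono_of (hT : G.IsTree) {W : Finset V} {θ θ' : ℝ} {κ : ℝ → ℝ}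
    (hθ0 : 0 ≤ θ) (hθθ' : θ ≤ θ') (hθ1 : θ' < 1) (hκ : IsStrength κ) (τ : ℝ) {Ψ : ℝ → ℝ}
    (hΨ : ConvexOn ℝ (Icc (-1) 1) Ψ) (hev : ∀ x, Ψ (-x) = Ψ x) (hc : ContinuousOn Ψ (Icc (-1) 1))
    {v : V} (hv : v ∈ W)
    (hfe : ∀ (θ'' : ℝ), 0 ≤ θ'' → θ'' < 1 → ∀ {Ψ : (V → ℝ) → ℝ≥0∞}, Measurable Ψ →
      ∫⁻ ω, Ψ (field G θ'' κ W ω τ) ∂(PP V) =
        ∫⁻ ω, Ψ (field0W κ W ω τ) * ENNReal.ofReal (lik G θ'' κ W ω τ) ∂(PP V))
    (hm : ∀ θ'' : ℝ, Measurable fun ω : Om V => mW G θ'' κ W ω τ v) :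
    ∫ ω, Ψ (mW G θ κ W ω τ v) ∂(PP V) ≤ ∫ ω, Ψ (mW G θ' κ W ω τ v) ∂(PP V) := by
  have h0' : 0 ≤ θ' := hθ0.trans hθθ'
  have h1' : θ < 1 := lt_of_le_of_lt hθθ' hθ1
  have hprob : IsProbabilityMeasure (PP V) := by
    unfold PP lam Crest.ProbabilityR.Labels.labelMeasure
    infer_instance
  -- bounds
  obtain ⟨M₀, hM₀⟩ := isCompact_Icc.exists_bound_of_continuousOn hc
  set M : ℝ := |M₀| with hM
  have hM0 : 0 ≤ M := abs_nonneg _
  have hMb : ∀ x ∈ Icc (-1 : ℝ) 1, |Ψ x| ≤ M := fun x hx => (hM₀ x hx).trans (le_abs_self _)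
  set Φ : ℝ → ℝ := fun x => Ψ x + M with hΦdef
  have hΦ : ConvexOn ℝ (Icc (-1) 1) Φ := hΨ.add (convexOn_const M (convex_Icc _ _))
  have hΦev : ∀ x, Φ (-x) = Φ x := fun x => by simp only [hΦdef, hev]
  have hΦc : ContinuousOn Φ (Icc (-1) 1) := hc.add continuousOn_const
  have hΦ0 : ∀ x ∈ Icc (-1 : ℝ) 1, 0 ≤ Φ x := fun x hx => by
    have := (abs_le.1 (hMb x hx)).1
    simp only [hΦdef]
    linarith
  have hΦb : ∀ x ∈ Icc (-1 : ℝ) 1, Φ x ≤ 2 * M := fun x hx => by
    have := (abs_le.1 (hMb x hx)).2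
    simp only [hΦdef]
    linarith
  have hmem : ∀ θ'' , 0 ≤ θ'' → θ'' < 1 → ∀ ω, mW G θ'' κ W ω τ v ∈ Icc (-1 : ℝ) 1 :=
    fun θ'' h1 h2 ω => abs_le.1 (abs_gm_le' h1 h2 W _ v)
  -- measurability of `Φ ∘ m`
  let Φc : ℝ → ℝ := fun x => Φ (projIcc (-1 : ℝ) 1 (by norm_num) x)
  have hΦcc : Continuous Φc :=
    (continuousOn_iff_continuous_domRestrict.1 hΦc).comp continuous_projIcc
  have hΦceq : ∀ x ∈ Icc (-1 : ℝ) 1, Φc x = Φ x := by
    intro x hx
    simp only [Φc]
    rw [projIcc_of_mem (by norm_num) hx]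
  have hΦm : ∀ θ'', 0 ≤ θ'' → θ'' < 1 → Measurable fun ω : Om V => Φ (mW G θ'' κ W ω τ v) := by
    intro θ'' h1 h2
    have : (fun ω : Om V => Φ (mW G θ'' κ W ω τ v)) = fun ω => Φc (mW G θ'' κ W ω τ v) := by
      funext ω
      rw [hΦceq _ (hmem θ'' h1 h2 ω)]
    rw [this]
    exact hΦcc.measurable.comp (hm θ'')
  -- reduction to `Φ`
  have hint : ∀ θ'', 0 ≤ θ'' → θ'' < 1 →
      ∫ ω, Ψ (mW G θ'' κ W ω τ v) ∂(PP V) = ∫ ω, Φ (mW G θ'' κ W ω τ v) ∂(PP V) - M := by
    intro θ'' h1 h2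
    have hI : Integrable (fun ω : Om V => Φ (mW G θ'' κ W ω τ v)) (PP V) := by
      refine Integrable.of_bound (hΦm θ'' h1 h2).aestronglyMeasurable (2 * M) (ae_of_all _ fun ω => ?_)
      rw [Real.norm_of_nonneg (hΦ0 _ (hmem θ'' h1 h2 ω))]
      exact hΦb _ (hmem θ'' h1 h2 ω)
    have : (fun ω : Om V => Ψ (mW G θ'' κ W ω τ v)) = fun ω => Φ (mW G θ'' κ W ω τ v) - M := by
      funext ω
      simp only [hΦdef]
      ring
    rw [this, integral_sub hI (integrable_const M), integral_const]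
    simp
  rw [hint θ hθ0 h1', hint θ' h0' hθ1]
  refine sub_le_sub_right ?_ M
  have hlin := lintegral_convex_mono hT hθ0 hθθ' hθ1 hκ τ hΦ hΦev hΦc hΦ0 hv hfe
  rw [integral_eq_lintegral_of_nonneg_ae (ae_of_all _ fun ω => hΦ0 _ (hmem θ hθ0 h1' ω))
      (hΦm θ hθ0 h1').aestronglyMeasurable,
    integral_eq_lintegral_of_nonneg_ae (ae_of_all _ fun ω => hΦ0 _ (hmem θ' h0' hθ1 ω))
      (hΦm θ' h0' hθ1).aestronglyMeasurable]
  refine ENNReal.toReal_mono ?_ hlin
  have : ∫⁻ ω, ENNReal.ofReal (Φ (mW G θ' κ W ω τ v)) ∂(PP V) ≤ ∫⁻ _, ENNReal.ofReal (2 * M) ∂(PP V) :=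
    lintegral_mono fun ω => ENNReal.ofReal_le_ofReal (hΦb _ (hmem θ' h0' hθ1 ω))
  have hconst : ∫⁻ _ : Om V, ENNReal.ofReal (2 * M) ∂(PP V) = ENNReal.ofReal (2 * M) := by
    rw [lintegral_const, measure_univ, mul_one]
  rw [hconst] at this
  exact ne_top_of_le_ne_top ENNReal.ofReal_ne_top this

end Crest.Agent.Lib.IsingFIID.MonoF
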