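/-
Row 160 (S0241): the mean `ψ(τ)` of the edge functional is measurable in the time.
-/
import Crest.Agent.Lib.IsingFIID.StrictBasic
import Crest.Agent.Lib.IsingFIID.MainFixed

set_option autoImplicit false

namespace Crest.Agent.Lib.IsingFIID

open MeasureTheory

variable {V : Type*} [DecidableEq V] {G : SimpleGraph V} [G.LocallyFinite]

theorem measurable_fPair_joint {θ θ' : ℝ} {κ : ℝ → ℝ} (hκ : Measurable κ) (a b : V) :
    Measurable fun p : ℝ × Om V => fPair G θ θ' κ p.2 p.1 a b := by
  unfold fPair
  have h1 := Measurable.comp (measurable_aOf_pa θ) ((measurable_mInf (G := G) (θ := θ) hκ a).prodMk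
    (measurable_mInf (G := G) (θ := θ) hκ b))
  have h2 := Measurable.comp (measurable_aOf_pa θ') ((measurable_mInf (G := G) (θ := θ') hκ a).prodMk
    (measurable_mInf (G := G) (θ := θ') hκ b))
  exact h1.sub h2

/-- `τ ↦ ψ(τ)` is measurable. -/
theorem measurable_psi {θ θ' : ℝ} {κ : ℝ → ℝ} (hκ : Measurable κ) (a b : V) :
    Measurable fun τ : ℝ => ∫ ω, fPair G θ θ' κ ω τ a b ∂(PP V) := by
  have hj := measurable_fPair_joint (G := G) (θ := θ) (θ' := θ') hκ a b
  have h2 : StronglyMeasurable (Function.uncurry fun (τ : ℝ) (ω : Om V) => fPair G θ θ' κ ω τ a b) :=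
    hj.stronglyMeasurable
  haveI : IsProbabilityMeasure (lam (V × ℕ)) := by
    unfold lam Crest.ProbabilityR.Labels.labelMeasure; infer_instance
  haveI : IsProbabilityMeasure (PP V) := by
    unfold PP; infer_instance
  have := (h2.integral_prod_right (ν := PP V)).measurable
  exact this

end Crest.Agent.Lib.IsingFIID
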