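/-
An abstract finite time-ordered ring system.  Each ring `i : I` has an independent label
`(T_i, mark_i)`, with the ring time `T_i` having an atomless law `ρ i` and the mark having law `ν`.
Each ring acts on an arbitrary measurable state space `X` by a measurable step.  `run J τ ω` is
the state at time `τ` resulting from the rings of `J` that happen before `τ`, in time order.

Main results:
* `telescope`: the pathwise telescoping identity;
* `gen_formula`: exact generator (Mecke) formula for bounded measurable `G`;
* `hole_le`: the hole factor.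
-/
import Mathlib

set_option autoImplicit false
set_option linter.unusedSectionVars false
set_option linter.unusedVariables false

namespace Crest.Agent.Lib.IsingFIID.RingSys

open MeasureTheory Finset

variable {I : Type*} [LinearOrder I]
variable {M : Type*} {X : Type*}

/-- A label configuration: ring time and mark for each ring. -/
abbrev Lbl (I M : Type*) := I → ℝ × M

/-- The lexicographic key `(time, index)`. -/
def key (ω : Lbl I M) (i : I) : ℝ ×ₗ I := toLex ((ω i).1, i)

lemma key_inj (ω : Lbl I M) {i j : I} (h : key ω i = key ω j) : i = j := by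
  have := congrArg (fun z => (ofLex z).2) h
  simpa [key] using this

lemma key_lt_iff (ω : Lbl I M) {i j : I} :
    key ω i < key ω j ↔ (ω i).1 < (ω j).1 ∨ ((ω i).1 = (ω j).1 ∧ i < j) := by
  unfold key
  rw [Prod.Lex.toLex_lt_toLex]

lemma key_le_iff (ω : Lbl I M) {i j : I} :
    key ω i ≤ key ω j ↔ (ω i).1 < (ω j).1 ∨ ((ω i).1 = (ω j).1 ∧ i ≤ j) := by
  unfold key
  rw [Prod.Lex.toLex_le_toLex]

/-- The last ring of a nonempty set of rings. -/
noncomputable def lastRing (R : Finset I) (h : R.Nonempty) (ω : Lbl I M) : I :=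
  (Finset.exists_max_image R (key ω) h).choose

lemma lastRing_mem (R : Finset I) (h : R.Nonempty) (ω : Lbl I M) : lastRing R h ω ∈ R :=
  (Finset.exists_max_image R (key ω) h).choose_spec.1

lemma le_lastRing (R : Finset I) (h : R.Nonempty) (ω : Lbl I M) {i : I} (hi : i ∈ R) :
    key ω i ≤ key ω (lastRing R h ω) :=
  (Finset.exists_max_image R (key ω) h).choose_spec.2 i hi

lemma lastRing_eq {R : Finset I} (h : R.Nonempty) {ω : Lbl I M} {j : I} (hj : j ∈ R)
    (hm : ∀ i ∈ R, key ω i ≤ key ω j) : lastRing R h ω = j :=
  key_inj ω (le_antisymm (hm _ (lastRing_mem R h ω)) (le_lastRing R h ω hj))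

lemma lastRing_congr {R : Finset I} (h : R.Nonempty) {ω ω' : Lbl I M}
    (hω : ∀ i ∈ R, (ω i).1 = (ω' i).1) : lastRing R h ω = lastRing R h ω' := by
  apply lastRing_eq h (lastRing_mem R h ω')
  intro i hi
  have := le_lastRing R h ω' hi
  rw [key_le_iff] at this ⊢
  rw [hω i hi, hω _ (lastRing_mem R h ω')]
  exact this

variable (step : I → ℝ → M → X → X) (x0 : X)

/-- The state after the rings in `R`, applied in time order. -/
noncomputable def runSet (ω : Lbl I M) (R : Finset I) : X :=
  if h : R.Nonempty then
    step (lastRing R h ω) (ω (lastRing R h ω)).1 (ω (lastRing R h ω)).2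
      (runSet ω (R.erase (lastRing R h ω)))
  else x0
termination_by R.card
decreasing_by exact Finset.card_erase_lt_of_mem (lastRing_mem R h ω)

lemma runSet_empty (ω : Lbl I M) : runSet step x0 ω ∅ = x0 := by
  rw [runSet]; simp

lemma runSet_nonempty (ω : Lbl I M) {R : Finset I} (h : R.Nonempty) :
    runSet step x0 ω R = step (lastRing R h ω) (ω (lastRing R h ω)).1 (ω (lastRing R h ω)).2
      (runSet step x0 ω (R.erase (lastRing R h ω))) := by
  rw [runSet, dif_pos h]

/-- `runSet` depends only on the labels in `R`. -/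
lemma runSet_congr {ω ω' : Lbl I M} (n : ℕ) (R : Finset I) (hn : R.card = n)
    (hω : ∀ i ∈ R, ω i = ω' i) : runSet step x0 ω R = runSet step x0 ω' R := by
  induction n generalizing R with
  | zero =>
    rw [Finset.card_eq_zero] at hn
    subst hn
    rw [runSet_empty, runSet_empty]
  | succ n ih =>
    have hne : R.Nonempty := by
      rw [← Finset.card_pos]; omega
    rw [runSet_nonempty step x0 ω hne, runSet_nonempty step x0 ω' hne]
    have hl : lastRing R hne ω = lastRing R hne ω' :=
      lastRing_congr hne fun i hi => by rw [hω i hi]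
    rw [hl, hω _ (lastRing_mem R hne ω'), ih (R.erase _) ?_ ?_]
    · rw [Finset.card_erase_of_mem (lastRing_mem R hne ω'), hn]; rfl
    · intro i hi
      exact hω i (Finset.mem_of_mem_erase hi)

/-- **Pathwise telescoping**. -/
theorem telescope (G : X → ℝ) (ω : Lbl I M) (n : ℕ) (R : Finset I) (hn : R.card = n) :
    G (runSet step x0 ω R) - G x0 =
      ∑ i ∈ R, (G (step i (ω i).1 (ω i).2 (runSet step x0 ω (R.filter (key ω · < key ω i)))) -
        G (runSet step x0 ω (R.filter (key ω · < key ω i)))) := by
  induction n generalizing R with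
  | zero =>
    rw [Finset.card_eq_zero] at hn
    subst hn
    simp [runSet_empty]
  | succ n ih =>
    have hne : R.Nonempty := by
      rw [← Finset.card_pos]; omega
    set j := lastRing R hne ω with hj
    have hjm : j ∈ R := lastRing_mem R hne ω
    have hcard : (R.erase j).card = n := by
      rw [Finset.card_erase_of_mem hjm, hn]; rfl
    have hf : R.filter (key ω · < key ω j) = R.erase j := by
      ext i
      simp only [Finset.mem_filter, Finset.mem_erase]
      constructor
      · rintro ⟨hi, hlt⟩
        exact ⟨fun h => (lt_irrefl _ (h ▸ hlt)), hi⟩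
      · rintro ⟨hne', hi⟩
        refine ⟨hi, lt_of_le_of_ne (le_lastRing R hne ω hi) fun h => hne' (key_inj ω h)⟩
    have hf2 : ∀ i ∈ R.erase j, R.filter (key ω · < key ω i) =
        (R.erase j).filter (key ω · < key ω i) := by
      intro i hi
      ext k
      simp only [Finset.mem_filter, Finset.mem_erase]
      constructor
      · rintro ⟨hk, hlt⟩
        refine ⟨⟨?_, hk⟩, hlt⟩
        rintro rfl
        exact absurd (le_lastRing R hne ω (Finset.mem_of_mem_erase hi)) (not_le.mpr hlt)
      · rintro ⟨⟨_, hk⟩, hlt⟩
        exact ⟨hk, hlt⟩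
    rw [← Finset.add_sum_erase R _ hjm, hf]
    have hsum : ∑ i ∈ R.erase j, (G (step i (ω i).1 (ω i).2
          (runSet step x0 ω (R.filter (key ω · < key ω i)))) -
        G (runSet step x0 ω (R.filter (key ω · < key ω i)))) =
        ∑ i ∈ R.erase j, (G (step i (ω i).1 (ω i).2
          (runSet step x0 ω ((R.erase j).filter (key ω · < key ω i)))) -
        G (runSet step x0 ω ((R.erase j).filter (key ω · < key ω i)))) :=
      Finset.sum_congr rfl fun i hi => by rw [hf2 i hi]
    rw [hsum, ← ih (R.erase j) hcard, runSet_nonempty step x0 ω hne]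
    ring

/-- The state at time `τ`, using the rings of `J` only. -/
noncomputable def run (J : Finset I) (τ : ℝ) (ω : Lbl I M) : X :=
  runSet step x0 ω (J.filter fun j => (ω j).1 < τ)

/-- No two rings at the same time. -/
def NoTie (ω : Lbl I M) : Prop := ∀ i j, i ≠ j → (ω i).1 ≠ (ω j).1

/-- Telescoping over time. -/
theorem run_telescope (G : X → ℝ) {ω : Lbl I M} (hω : NoTie ω) (J : Finset I) (τ : ℝ) :
    G (run step x0 J τ ω) - G x0 =
      ∑ i ∈ J, if (ω i).1 < τ then
        G (step i (ω i).1 (ω i).2 (run step x0 (J.erase i) (ω i).1 ω)) -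
          G (run step x0 (J.erase i) (ω i).1 ω)
      else 0 := by
  unfold run
  rw [telescope step x0 G ω _ _ rfl, Finset.sum_filter]
  refine Finset.sum_congr rfl fun i hi => ?_
  split_ifs with h
  · have : (J.filter fun j => (ω j).1 < τ).filter (key ω · < key ω i) =
        (J.erase i).filter fun j => (ω j).1 < (ω i).1 := by
      ext k
      simp only [Finset.mem_filter, Finset.mem_erase]
      constructor
      · rintro ⟨⟨hk, _⟩, hlt⟩
        have hki : k ≠ i := by
          rintro rfl; exact lt_irrefl _ hlt
        refine ⟨⟨hki, hk⟩, ?_⟩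
        rcases (key_lt_iff ω).mp hlt with h1 | ⟨h1, _⟩
        · exact h1
        · exact absurd h1 (hω k i hki)
      · rintro ⟨⟨hki, hk⟩, hlt⟩
        exact ⟨⟨hk, lt_trans hlt h⟩, (key_lt_iff ω).mpr (Or.inl hlt)⟩
    rw [this]
  · rfl

/-- `run` without ring `i` does not depend on the label of `i`. -/
lemma run_erase_congr (J : Finset I) (i : I) (t : ℝ) {ω ω' : Lbl I M}
    (h : ∀ j, j ≠ i → ω j = ω' j) :
    run step x0 (J.erase i) t ω = run step x0 (J.erase i) t ω' := by
  unfold run
  have : ((J.erase i).filter fun j => (ω j).1 < t) = (J.erase i).filter fun j => (ω' j).1 < t := by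
    refine Finset.filter_congr fun j hj => ?_
    rw [h j (Finset.ne_of_mem_erase hj)]
  rw [this]
  refine runSet_congr step x0 _ _ rfl fun j hj => ?_
  exact h j (Finset.ne_of_mem_erase (Finset.mem_filter.mp hj).1)

/-- Removing a ring with trivial step. -/
lemma runSet_erase_of_id (i : I) {ω : Lbl I M}
    (hid : ∀ x, step i (ω i).1 (ω i).2 x = x) (n : ℕ) (R : Finset I) (hn : R.card = n) :
    runSet step x0 ω R = runSet step x0 ω (R.erase i) := by
  induction n generalizing R with
  | zero =>
    rw [Finset.card_eq_zero] at hn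
    subst hn
    simp
  | succ n ih =>
    by_cases hiR : i ∈ R
    · have hne : R.Nonempty := ⟨i, hiR⟩
      have hcard : (R.erase (lastRing R hne ω)).card = n := by
        rw [Finset.card_erase_of_mem (lastRing_mem R hne ω), hn]; rfl
      by_cases hj : lastRing R hne ω = i
      · rw [runSet_nonempty step x0 ω hne, hj, hid]
      · have hj' : lastRing R hne ω ∈ R.erase i :=
          Finset.mem_erase.mpr ⟨hj, lastRing_mem R hne ω⟩
        have hne' : (R.erase i).Nonempty := ⟨_, hj'⟩
        have hl : lastRing (R.erase i) hne' ω = lastRing R hne ω :=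
          lastRing_eq hne' hj' fun k hk => le_lastRing R hne ω (Finset.mem_of_mem_erase hk)
        rw [runSet_nonempty step x0 ω hne, runSet_nonempty step x0 ω hne', hl,
          ih _ hcard, Finset.erase_right_comm]
    · rw [Finset.erase_eq_of_notMem hiR]

/-- The run with a trivial step at `i` equals the run without `i`. -/
lemma run_eq_erase_of_id (J : Finset I) (τ : ℝ) (i : I) {ω : Lbl I M}
    (hid : ∀ x, step i (ω i).1 (ω i).2 x = x) :
    run step x0 J τ ω = run step x0 (J.erase i) τ ω := by
  unfold run
  rw [runSet_erase_of_id step x0 i hid _ _ rfl]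
  congr 1
  ext k
  simp only [Finset.mem_erase, Finset.mem_filter]
  tauto

/-- Semiconjugacy: a map intertwining the steps intertwines the runs (same rings). -/
lemma runSet_semiconj {Y : Type*} (stepY : I → ℝ → M → Y → Y) (y0 : Y) (f : X → Y)
    (hf0 : f x0 = y0) (hf : ∀ i t mk x, f (step i t mk x) = stepY i t mk (f x)) (ω : Lbl I M)
    (n : ℕ) (R : Finset I) (hn : R.card = n) :
    f (runSet step x0 ω R) = runSet stepY y0 ω R := by
  induction n generalizing R with
  | zero =>
    rw [Finset.card_eq_zero] at hn
    subst hn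
    rw [runSet_empty, runSet_empty, hf0]
  | succ n ih =>
    have hne : R.Nonempty := by
      rw [← Finset.card_pos]; omega
    have hcard : (R.erase (lastRing R hne ω)).card = n := by
      rw [Finset.card_erase_of_mem (lastRing_mem R hne ω), hn]; rfl
    rw [runSet_nonempty step x0 ω hne, runSet_nonempty stepY y0 ω hne, hf, ih _ hcard]

lemma run_semiconj {Y : Type*} (stepY : I → ℝ → M → Y → Y) (y0 : Y) (f : X → Y)
    (hf0 : f x0 = y0) (hf : ∀ i t mk x, f (step i t mk x) = stepY i t mk (f x)) (J : Finset I)
    (τ : ℝ) (ω : Lbl I M) : f (run step x0 J τ ω) = run stepY y0 J τ ω :=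
  runSet_semiconj step x0 stepY y0 f hf0 hf ω _ _ rfl

/-- On the no-tie event, the order of the index type is irrelevant and a bijection of the ring
indices transports the run. -/
theorem runSet_transport {I' X' : Type*} [LinearOrder I'] (step' : I' → ℝ → M → X' → X') (x0' : X')
    (φ : I ≃ I') (f : X → X') (hf0 : f x0 = x0')
    (hf : ∀ i t mk x, f (step i t mk x) = step' (φ i) t mk (f x)) {ω' : Lbl I' M}
    (hω' : NoTie ω') (n : ℕ) (R : Finset I) (hn : R.card = n) :
    f (runSet step x0 (fun i => ω' (φ i)) R) = runSet step' x0' ω' (R.map φ.toEmbedding) := by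
  induction n generalizing R with
  | zero =>
    rw [Finset.card_eq_zero] at hn
    subst hn
    simp [runSet_empty, hf0]
  | succ n ih =>
    have hne : R.Nonempty := by
      rw [← Finset.card_pos]; omega
    have hne' : (R.map φ.toEmbedding).Nonempty := hne.map
    set ω : Lbl I M := fun i => ω' (φ i) with hω
    set j := lastRing R hne ω with hj
    have hjm : j ∈ R := lastRing_mem R hne ω
    have hlast : lastRing (R.map φ.toEmbedding) hne' ω' = φ j := by
      refine lastRing_eq hne' (Finset.mem_map_of_mem _ hjm) fun i' hi' => ?_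
      obtain ⟨i, hi, rfl⟩ := Finset.mem_map.mp hi'
      have h1 := le_lastRing R hne ω hi
      rw [key_le_iff] at h1 ⊢
      rcases h1 with h1 | ⟨h1, h2⟩
      · exact Or.inl h1
      · by_cases hij : i = j
        · subst hij
          exact Or.inr ⟨rfl, le_rfl⟩
        · exact absurd h1 (hω' _ _ fun h => hij (φ.injective h))
    have hcard : (R.erase j).card = n := by
      rw [Finset.card_erase_of_mem hjm, hn]; rfl
    have hmap : (R.map φ.toEmbedding).erase (φ j) = (R.erase j).map φ.toEmbedding := by
      rw [Finset.map_erase]; rfl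
    rw [runSet_nonempty step x0 ω hne, runSet_nonempty step' x0' ω' hne', hlast, hf, hmap,
      ih _ hcard]

/-- The run of a set of rings whose other members are trivial. -/
lemma run_filter_of_id (J J0 : Finset I) (h0 : J0 ⊆ J) (τ : ℝ) {ω : Lbl I M}
    (hid : ∀ i ∈ J, i ∉ J0 → ∀ x, step i (ω i).1 (ω i).2 x = x) :
    run step x0 J τ ω = run step x0 J0 τ ω := by
  induction h : (J \ J0).card generalizing J with
  | zero =>
    have : J ⊆ J0 := by
      have h2 := Finset.card_eq_zero.mp h
      exact Finset.sdiff_eq_empty_iff_subset.mp h2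
    rw [Finset.Subset.antisymm this h0]
  | succ n ih =>
    have hne : (J \ J0).Nonempty := by
      rw [← Finset.card_pos]; omega
    obtain ⟨i, hi⟩ := hne
    rw [Finset.mem_sdiff] at hi
    rw [run_eq_erase_of_id step x0 J τ i (hid i hi.1 hi.2)]
    refine ih (J.erase i) ?_ ?_ ?_
    · intro k hk
      exact Finset.mem_erase.mpr ⟨fun h3 => hi.2 (h3 ▸ hk), h0 hk⟩
    · intro k hk hk'
      exact hid k (Finset.mem_of_mem_erase hk) hk'
    · have : J.erase i \ J0 = (J \ J0).erase i := by
        ext k
        simp only [Finset.mem_sdiff, Finset.mem_erase]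
        tauto
      rw [this, Finset.card_erase_of_mem (Finset.mem_sdiff.mpr hi), h]
      rfl

/-! ### Measurability -/

section meas

variable [Fintype I] [MeasurableSpace M] [MeasurableSpace X]

/-- Measurability by finitely many cases. -/
lemma measurable_cases {Ω' κ : Type*} [MeasurableSpace Ω'] [Countable κ] {c : Ω' → κ}
    (hc : ∀ j, MeasurableSet {p | c p = j}) {g : κ → Ω' → X} (hg : ∀ j, Measurable (g j)) :
    Measurable (fun p => g (c p) p) := by
  intro A hA
  have : (fun p => g (c p) p) ⁻¹' A = ⋃ j, ({p | c p = j} ∩ (g j) ⁻¹' A) := by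
    ext p
    simp only [Set.mem_preimage, Set.mem_iUnion, Set.mem_inter_iff, Set.mem_ofPred_eq]
    constructor
    · intro h; exact ⟨c p, rfl, h⟩
    · rintro ⟨j, rfl, h⟩; exact h
  rw [this]
  exact MeasurableSet.iUnion fun j => (hc j).inter (hg j hA)

lemma measurable_time (i : I) : Measurable (fun ω : Lbl I M => (ω i).1) :=
  measurable_fst.comp (measurable_pi_apply i)

lemma measurable_mark (i : I) : Measurable (fun ω : Lbl I M => (ω i).2) :=
  measurable_snd.comp (measurable_pi_apply i)

lemma measurableSet_key_le (i j : I) : MeasurableSet {ω : Lbl I M | key ω i ≤ key ω j} := by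
  have : {ω : Lbl I M | key ω i ≤ key ω j} =
      {ω | (ω i).1 < (ω j).1} ∪ ({ω | (ω i).1 = (ω j).1} ∩ {_ω | i ≤ j}) := by
    ext ω
    simp only [Set.mem_ofPred_eq, Set.mem_union, Set.mem_inter_iff, key_le_iff]
  rw [this]
  refine (measurableSet_lt (measurable_time i) (measurable_time j)).union
    ((measurableSet_eq_fun (measurable_time i) (measurable_time j)).inter ?_)
  exact MeasurableSet.const _

lemma measurableSet_lastRing (R : Finset I) (h : R.Nonempty) (j : I) :
    MeasurableSet {ω : Lbl I M | lastRing R h ω = j} := by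
  by_cases hj : j ∈ R
  · have : {ω : Lbl I M | lastRing R h ω = j} = ⋂ i ∈ R, {ω | key ω i ≤ key ω j} := by
      ext ω
      simp only [Set.mem_ofPred_eq, Set.mem_iInter]
      constructor
      · rintro rfl i hi; exact le_lastRing R h ω hi
      · intro hm; exact lastRing_eq h hj hm
    rw [this]
    exact Finset.measurableSet_biInter R fun i _ => measurableSet_key_le i j
  · have : {ω : Lbl I M | lastRing R h ω = j} = ∅ := by
      ext ω
      simp only [Set.mem_ofPred_eq, Set.mem_empty_iff_false, iff_false]
      rintro rfl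
      exact hj (lastRing_mem R h ω)
    rw [this]; exact MeasurableSet.empty

variable {step}
variable (hstep : ∀ i, Measurable (fun p : ℝ × M × X => step i p.1 p.2.1 p.2.2))

include hstep

lemma measurable_runSet (n : ℕ) (R : Finset I) (hn : R.card = n) :
    Measurable (fun ω : Lbl I M => runSet step x0 ω R) := by
  induction n generalizing R with
  | zero =>
    rw [Finset.card_eq_zero] at hn
    subst hn
    simp only [runSet_empty]
    exact measurable_const
  | succ n ih =>
    have hne : R.Nonempty := by
      rw [← Finset.card_pos]; omega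
    let g : I → Lbl I M → X := fun j ω => if j ∈ R then
          step j (ω j).1 (ω j).2 (runSet step x0 ω (R.erase j)) else x0
    have hg : ∀ j, Measurable (g j) := by
      intro j
      by_cases hj : j ∈ R
      · have hcard : (R.erase j).card = n := by
          rw [Finset.card_erase_of_mem hj, hn]; rfl
        simp only [g, hj, if_true]
        exact (hstep j).comp ((measurable_time j).prodMk
          ((measurable_mark j).prodMk (ih _ hcard)))
      · simp only [g, hj, if_false]
        exact measurable_const
    have e : (fun ω : Lbl I M => runSet step x0 ω R) = fun ω => g (lastRing R hne ω) ω := by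
      funext ω
      simp only [g, lastRing_mem R hne ω, if_true]
      exact runSet_nonempty step x0 ω hne
    rw [e]
    exact measurable_cases (measurableSet_lastRing R hne) hg

/-- Joint measurability of `run` in the time and the labels. -/
lemma measurable_run (J : Finset I) :
    Measurable (fun p : ℝ × Lbl I M => run step x0 J p.1 p.2) := by
  classical
  let g : Finset I → ℝ × Lbl I M → X := fun R p => runSet step x0 p.2 R
  have hg : ∀ R, Measurable (g R) := fun R =>
    (measurable_runSet x0 hstep _ R rfl).comp measurable_snd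
  have e : (fun p : ℝ × Lbl I M => run step x0 J p.1 p.2) = fun p =>
      g (J.filter fun j => (p.2 j).1 < p.1) p := rfl
  rw [e]
  refine measurable_cases ?_ hg
  intro R
  have : {p : ℝ × Lbl I M | (J.filter fun j => (p.2 j).1 < p.1) = R} =
      ⋂ j : I, {p | (j ∈ J ∧ (p.2 j).1 < p.1) ↔ j ∈ R} := by
    ext p
    simp only [Set.mem_ofPred_eq, Set.mem_iInter, Finset.ext_iff, Finset.mem_filter]
  rw [this]
  refine MeasurableSet.iInter fun j => ?_
  have hlt : MeasurableSet {p : ℝ × Lbl I M | (p.2 j).1 < p.1} :=
    measurableSet_lt ((measurable_time j).comp measurable_snd) measurable_fst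
  by_cases hjR : j ∈ R
  · by_cases hjJ : j ∈ J
    · simpa [hjR, hjJ] using hlt
    · simp [hjR, hjJ]
  · by_cases hjJ : j ∈ J
    · convert hlt.compl using 1
      ext p
      simp [hjR, hjJ]
    · simp [hjR, hjJ]

end meas

/-! ### Integrating out one coordinate of a finite product measure -/

section update

variable [Fintype I] {α : I → Type*} [∀ i, MeasurableSpace (α i)] (μ : ∀ i, Measure (α i))
  [∀ i, IsProbabilityMeasure (μ i)]

/-- Resampling one coordinate preserves a product measure. -/
lemma map_update (i : I) :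
    ((Measure.pi μ).prod (μ i)).map (fun p : (∀ i, α i) × α i => Function.update p.1 i p.2) =
      Measure.pi μ := by
  symm
  refine Measure.pi_eq fun s hs => ?_
  have hu : Measurable (fun p : (∀ i, α i) × α i => Function.update p.1 i p.2) :=
    measurable_update'
  rw [Measure.map_apply hu (MeasurableSet.univ_pi hs)]
  have e : (fun p : (∀ i, α i) × α i => Function.update p.1 i p.2) ⁻¹' (Set.pi Set.univ s) =
      (Set.pi Set.univ (Function.update s i Set.univ)) ×ˢ s i := by
    ext ⟨ω, z⟩
    simp only [Set.mem_preimage, Set.mem_pi, Set.mem_univ, forall_true_left, Set.mem_prod]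
    constructor
    · intro h
      refine ⟨fun j => ?_, by simpa using h i⟩
      by_cases hj : j = i
      · subst hj; simp
      · simpa [Function.update_of_ne hj] using h j
    · rintro ⟨h1, h2⟩ j
      by_cases hj : j = i
      · subst hj; simpa using h2
      · simpa [Function.update_of_ne hj] using h1 j
  rw [e, Measure.prod_prod, Measure.pi_pi, ← Finset.prod_erase_mul Finset.univ _ (Finset.mem_univ i),
    ← Finset.prod_erase_mul Finset.univ (fun j => μ j (s j)) (Finset.mem_univ i)]
  simp only [Function.update_self, measure_univ, mul_one]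
  congr 1
  refine Finset.prod_congr rfl fun j hj => ?_
  rw [Function.update_of_ne (Finset.ne_of_mem_erase hj)]

/-- Resampling one coordinate: integral form. -/
lemma integral_update (i : I) {H : (∀ i, α i) → ℝ} (hH : Integrable H (Measure.pi μ)) :
    ∫ ω, H ω ∂(Measure.pi μ) =
      ∫ ω, ∫ z, H (Function.update ω i z) ∂(μ i) ∂(Measure.pi μ) := by
  have hu : Measurable (fun p : (∀ i, α i) × α i => Function.update p.1 i p.2) :=
    measurable_update'
  have hH' : Integrable H (((Measure.pi μ).prod (μ i)).map
      (fun p : (∀ i, α i) × α i => Function.update p.1 i p.2)) := by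
    rw [map_update]; exact hH
  conv_lhs => rw [← map_update μ i]
  have h2 : Integrable (fun p : (∀ i, α i) × α i => H (Function.update p.1 i p.2))
      ((Measure.pi μ).prod (μ i)) :=
    (integrable_map_measure hH'.aestronglyMeasurable hu.aemeasurable).mp hH'
  rw [integral_map hu.aemeasurable hH'.aestronglyMeasurable]
  exact integral_prod _ h2

/-- Resampling one coordinate: measure form. -/
lemma pi_apply_update (i : I) {A : Set (∀ i, α i)} (hA : MeasurableSet A) :
    Measure.pi μ A =
      ∫⁻ ω, (μ i) {z | Function.update ω i z ∈ A} ∂(Measure.pi μ) := by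
  have hu : Measurable (fun p : (∀ i, α i) × α i => Function.update p.1 i p.2) :=
    measurable_update'
  conv_lhs => rw [← map_update μ i]
  rw [Measure.map_apply hu hA, Measure.prod_apply (hu hA)]
  rfl

end update

/-! ### The measure on labels and the generator formula -/

section gen

variable [Fintype I] [MeasurableSpace M] [MeasurableSpace X]
variable (ρ : I → Measure ℝ) [∀ i, IsProbabilityMeasure (ρ i)] [∀ i, NullSingletonClass (ρ i)]
variable (ν : Measure M) [IsProbabilityMeasure ν]

/-- The law of the labels. -/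
noncomputable def lblLaw : Measure (Lbl I M) := Measure.pi fun i => (ρ i).prod ν

instance : IsProbabilityMeasure (lblLaw ρ ν) := by
  unfold lblLaw; infer_instance

/-- Almost surely no two rings happen at the same time. -/
lemma noTie_ae : ∀ᵐ ω ∂(lblLaw ρ ν), NoTie ω := by
  unfold NoTie
  simp only [ae_all_iff]
  intro i j hij
  have hA : MeasurableSet {ω : Lbl I M | (ω i).1 = (ω j).1} :=
    measurableSet_eq_fun (measurable_time i) (measurable_time j)
  have key' : lblLaw ρ ν {ω : Lbl I M | (ω i).1 = (ω j).1} = 0 := by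
    unfold lblLaw
    rw [pi_apply_update (fun i => (ρ i).prod ν) i hA]
    have : ∀ ω : Lbl I M, ((ρ i).prod ν) {z | Function.update ω i z ∈
        {ω : Lbl I M | (ω i).1 = (ω j).1}} = 0 := by
      intro ω
      have e : {z : ℝ × M | Function.update ω i z ∈ {ω : Lbl I M | (ω i).1 = (ω j).1}} =
          {(ω j).1} ×ˢ Set.univ := by
        ext z
        simp [Function.update_of_ne hij.symm]
      rw [e, Measure.prod_prod]
      simp
    rw [lintegral_congr this, lintegral_zero]
  rw [ae_iff]
  simpa using key'

variable {step}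
variable (hstep : ∀ i, Measurable (fun p : ℝ × M × X => step i p.1 p.2.1 p.2.2))
variable {G : X → ℝ} (hG : Measurable G) {C : ℝ} (hC : ∀ x, |G x| ≤ C)

/-- The generator of a ring: `A_i^t G (x) = ∫ G(step_i(t,mk,x)) dν(mk) - G(x)`. -/
noncomputable def genOp (step : I → ℝ → M → X → X) (ν : Measure M) (i : I) (t : ℝ) (G : X → ℝ)
    (x : X) : ℝ :=
  ∫ mk, G (step i t mk x) ∂ν - G x

include hstep hG hC

lemma integrable_comp_bdd {Ω' : Type*} [MeasurableSpace Ω'] (μ' : Measure Ω') [IsFiniteMeasure μ']
    {f : Ω' → X} (hf : Measurable f) : Integrable (fun p => G (f p)) μ' :=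
  Integrable.of_bound (hG.comp hf).aestronglyMeasurable C
    (Filter.Eventually.of_forall fun p => by simpa using hC (f p))

omit hstep hG hC in
lemma abs_sub_le_two {a b D : ℝ} (ha : |a| ≤ D) (hb : |b| ≤ D) : |a - b| ≤ 2 * D := by
  have := abs_sub a b
  linarith

/-- The contribution of one ring. -/
theorem ring_term (J : Finset I) (τ : ℝ) (i : I) :
    ∫ ω, (if (ω i).1 < τ then
        G (step i (ω i).1 (ω i).2 (run step x0 (J.erase i) (ω i).1 ω)) -
          G (run step x0 (J.erase i) (ω i).1 ω)
      else 0) ∂(lblLaw ρ ν) =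
    ∫ t, (if t < τ then
        ∫ ω, genOp step ν i t G (run step x0 (J.erase i) t ω) ∂(lblLaw ρ ν) else 0) ∂(ρ i) := by
  have hC0 : 0 ≤ C := le_trans (abs_nonneg _) (hC x0)
  set J' := J.erase i with hJ'
  -- the function of the ring label and the other labels
  let F : (ℝ × M) × Lbl I M → ℝ := fun p =>
    if p.1.1 < τ then
      G (step i p.1.1 p.1.2 (run step x0 J' p.1.1 p.2)) - G (run step x0 J' p.1.1 p.2)
    else 0
  have hY : Measurable (fun p : (ℝ × M) × Lbl I M => run step x0 J' p.1.1 p.2) :=
    (measurable_run x0 hstep J').comp ((measurable_fst.comp measurable_fst).prodMk measurable_snd)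
  have hS : Measurable (fun p : (ℝ × M) × Lbl I M => step i p.1.1 p.1.2 (run step x0 J' p.1.1 p.2)) :=
    (hstep i).comp ((measurable_fst.comp measurable_fst).prodMk
      ((measurable_snd.comp measurable_fst).prodMk hY))
  have hFm : Measurable F := by
    refine Measurable.ite ?_ ((hG.comp hS).sub (hG.comp hY)) measurable_const
    exact measurableSet_lt (measurable_fst.comp measurable_fst) measurable_const
  have hFb : ∀ p, |F p| ≤ 2 * C := by
    intro p
    simp only [F]
    split_ifs
    · exact abs_sub_le_two (hC _) (hC _)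
    · simp [hC0]
  -- the term as a function of the labels
  have hTerm : (fun ω : Lbl I M => if (ω i).1 < τ then
        G (step i (ω i).1 (ω i).2 (run step x0 J' (ω i).1 ω)) -
          G (run step x0 J' (ω i).1 ω)
      else 0) = fun ω => F (ω i, ω) := rfl
  rw [hTerm]
  have hpair : Measurable (fun ω : Lbl I M => ((ω i, ω) : (ℝ × M) × Lbl I M)) :=
    (measurable_pi_apply i).prodMk measurable_id
  have hint : Integrable (fun ω : Lbl I M => F (ω i, ω)) (lblLaw ρ ν) :=
    Integrable.of_bound (hFm.comp hpair).aestronglyMeasurable (2 * C)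
      (Filter.Eventually.of_forall fun ω => by simpa using hFb (ω i, ω))
  -- step 1: resample coordinate i
  have hS1 : ∫ ω, F (ω i, ω) ∂(lblLaw ρ ν) =
      ∫ ω, ∫ z, F (z, ω) ∂((ρ i).prod ν) ∂(lblLaw ρ ν) := by
    unfold lblLaw at hint ⊢
    rw [integral_update (fun i => (ρ i).prod ν) i hint]
    refine integral_congr_ae (Filter.Eventually.of_forall fun ω => ?_)
    refine integral_congr_ae (Filter.Eventually.of_forall fun z => ?_)
    simp only [F, Function.update_self]
    have hc : ∀ t, run step x0 J' t (Function.update ω i z) = run step x0 J' t ω := fun t =>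
      run_erase_congr step x0 J i t fun j hj => by rw [Function.update_of_ne hj]
    rw [hc]
  -- joint integrability
  have hF2 : Integrable (fun q : Lbl I M × (ℝ × M) => F (q.2, q.1))
      ((lblLaw ρ ν).prod ((ρ i).prod ν)) :=
    Integrable.of_bound (hFm.comp (measurable_snd.prodMk measurable_fst)).aestronglyMeasurable
      (2 * C) (Filter.Eventually.of_forall fun q => by simpa using hFb (q.2, q.1))
  have hF3 : Integrable (fun q : (ℝ × M) × Lbl I M => F q)
      (((ρ i).prod ν).prod (lblLaw ρ ν)) :=
    Integrable.of_bound hFm.aestronglyMeasurable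
      (2 * C) (Filter.Eventually.of_forall fun q => by simpa using hFb q)
  -- step 2: swap
  have hS2 : ∫ ω, ∫ z, F (z, ω) ∂((ρ i).prod ν) ∂(lblLaw ρ ν) =
      ∫ z, ∫ ω, F (z, ω) ∂(lblLaw ρ ν) ∂((ρ i).prod ν) :=
    integral_integral_swap (f := fun ω z => F (z, ω)) hF2
  -- step 3: split the ring label
  have hS3 : ∫ z, ∫ ω, F (z, ω) ∂(lblLaw ρ ν) ∂((ρ i).prod ν) =
      ∫ t, ∫ mk, ∫ ω, F ((t, mk), ω) ∂(lblLaw ρ ν) ∂ν ∂(ρ i) :=
    integral_prod (fun z => ∫ ω, F (z, ω) ∂(lblLaw ρ ν)) hF3.integral_prod_left
  rw [hS1, hS2, hS3]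
  refine integral_congr_ae (Filter.Eventually.of_forall fun t => ?_)
  -- step 4: for fixed time
  simp only
  by_cases ht : t < τ
  · rw [if_pos ht]
    have hF4 : Integrable (fun q : M × Lbl I M => F ((t, q.1), q.2)) (ν.prod (lblLaw ρ ν)) := by
      have hm : Measurable (fun q : M × Lbl I M => (((t, q.1), q.2) : (ℝ × M) × Lbl I M)) :=
        (measurable_const.prodMk measurable_fst).prodMk measurable_snd
      exact Integrable.of_bound (hFm.comp hm).aestronglyMeasurable (2 * C)
        (Filter.Eventually.of_forall fun q => by simpa using hFb ((t, q.1), q.2))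
    rw [integral_integral_swap (f := fun mk ω => F ((t, mk), ω)) hF4]
    refine integral_congr_ae (Filter.Eventually.of_forall fun ω => ?_)
    simp only [F, ht, if_true]
    unfold genOp
    rw [integral_sub, integral_const]
    · simp
    · have hm : Measurable (fun mk : M => G (step i t mk (run step x0 J' t ω))) :=
        hG.comp ((hstep i).comp (measurable_const.prodMk (measurable_id.prodMk measurable_const)))
      exact Integrable.of_bound hm.aestronglyMeasurable C
        (Filter.Eventually.of_forall fun mk => by simpa using hC _)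
    · exact integrable_const _
  · rw [if_neg ht]
    simp [F, ht]

/-- **Exact generator formula.** -/
theorem gen_formula (J : Finset I) (τ : ℝ) :
    ∫ ω, G (run step x0 J τ ω) ∂(lblLaw ρ ν) =
      G x0 + ∑ i ∈ J, ∫ t, (if t < τ then
        ∫ ω, genOp step ν i t G (run step x0 (J.erase i) t ω) ∂(lblLaw ρ ν) else 0) ∂(ρ i) := by
  have hae : ∀ᵐ ω ∂(lblLaw ρ ν), G (run step x0 J τ ω) = G x0 + ∑ i ∈ J,
      (if (ω i).1 < τ then
        G (step i (ω i).1 (ω i).2 (run step x0 (J.erase i) (ω i).1 ω)) -
          G (run step x0 (J.erase i) (ω i).1 ω)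
      else 0) := by
    filter_upwards [noTie_ae ρ ν] with ω hω
    rw [← run_telescope step x0 G hω J τ]; ring
  have hC0 : 0 ≤ C := le_trans (abs_nonneg _) (hC x0)
  have hinti : ∀ i ∈ J, Integrable (fun ω : Lbl I M => if (ω i).1 < τ then
        G (step i (ω i).1 (ω i).2 (run step x0 (J.erase i) (ω i).1 ω)) -
          G (run step x0 (J.erase i) (ω i).1 ω)
      else 0) (lblLaw ρ ν) := by
    intro i _
    have hY : Measurable (fun ω : Lbl I M => run step x0 (J.erase i) (ω i).1 ω) :=
      (measurable_run x0 hstep (J.erase i)).comp ((measurable_time i).prodMk measurable_id)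
    have hS : Measurable (fun ω : Lbl I M =>
        step i (ω i).1 (ω i).2 (run step x0 (J.erase i) (ω i).1 ω)) :=
      (hstep i).comp ((measurable_time i).prodMk ((measurable_mark i).prodMk hY))
    have hm : Measurable (fun ω : Lbl I M => if (ω i).1 < τ then
        G (step i (ω i).1 (ω i).2 (run step x0 (J.erase i) (ω i).1 ω)) -
          G (run step x0 (J.erase i) (ω i).1 ω)
      else 0) :=
      Measurable.ite (measurableSet_lt (measurable_time i) measurable_const)
        ((hG.comp hS).sub (hG.comp hY)) measurable_const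
    refine Integrable.of_bound hm.aestronglyMeasurable (2 * C)
      (Filter.Eventually.of_forall fun ω => ?_)
    simp only [Real.norm_eq_abs]
    split_ifs
    · exact abs_sub_le_two (hC _) (hC _)
    · simp [hC0]
  rw [integral_congr_ae hae, integral_add (integrable_const _) (integrable_finsetSum _ hinti),
    integral_const, integral_finsetSum _ hinti]
  simp only [probReal_univ, smul_eq_mul, one_mul]
  congr 1
  exact Finset.sum_congr rfl fun i _ => ring_term x0 ρ ν hstep hG hC J τ i

/-- The martingale corollary: if `G` is harmonic for every ring then its expectation is constant. -/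
theorem martingale (J : Finset I) (τ : ℝ) (hharm : ∀ i t x, genOp step ν i t G x = 0) :
    ∫ ω, G (run step x0 J τ ω) ∂(lblLaw ρ ν) = G x0 := by
  rw [gen_formula x0 ρ ν hstep hG hC J τ]
  simp [hharm]

omit hC in
/-- Measurability of the time integrand. -/
lemma stronglyMeasurable_A (J : Finset I) (i : I) :
    StronglyMeasurable (fun t => ∫ ω, genOp step ν i t G (run step x0 (J.erase i) t ω) ∂(lblLaw ρ ν)) := by
  have hY : Measurable (fun p : ℝ × Lbl I M => run step x0 (J.erase i) p.1 p.2) :=
    measurable_run x0 hstep (J.erase i)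
  have hS : Measurable (fun q : (ℝ × Lbl I M) × M =>
      G (step i q.1.1 q.2 (run step x0 (J.erase i) q.1.1 q.1.2))) :=
    hG.comp ((hstep i).comp ((measurable_fst.comp measurable_fst).prodMk
      (measurable_snd.prodMk (hY.comp measurable_fst))))
  have h1 : StronglyMeasurable (fun p : ℝ × Lbl I M =>
      ∫ mk, G (step i p.1 mk (run step x0 (J.erase i) p.1 p.2)) ∂ν) :=
    hS.stronglyMeasurable.integral_prod_right' (ν := ν)
  have h2 : StronglyMeasurable (fun p : ℝ × Lbl I M =>
      genOp step ν i p.1 G (run step x0 (J.erase i) p.1 p.2)) := by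
    unfold genOp
    exact h1.sub (hG.comp hY).stronglyMeasurable
  exact h2.integral_prod_right' (ν := lblLaw ρ ν)

/-- Bound of a generator. -/
lemma abs_genOp_le (i : I) (t : ℝ) (x : X) : |genOp step ν i t G x| ≤ 2 * C := by
  unfold genOp
  refine abs_sub_le_two ?_ (hC x)
  have hm : Measurable (fun mk : M => G (step i t mk x)) :=
    hG.comp ((hstep i).comp (measurable_const.prodMk (measurable_id.prodMk measurable_const)))
  have := norm_integral_le_of_norm_le_const (μ := ν) (f := fun mk => G (step i t mk x)) (C := C)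
    (Filter.Eventually.of_forall fun mk => by simpa using hC _)
  simpa using this

/-- Integrability of the time integrand. -/
lemma integrable_A (J : Finset I) (i : I) (μt : Measure ℝ) [IsFiniteMeasure μt] :
    Integrable (fun t => ∫ ω, genOp step ν i t G (run step x0 (J.erase i) t ω) ∂(lblLaw ρ ν)) μt := by
  refine Integrable.of_bound
    (stronglyMeasurable_A x0 ρ ν hstep hG J i).aestronglyMeasurable (2 * C)
    (Filter.Eventually.of_forall fun t => ?_)
  have := norm_integral_le_of_norm_le_const (μ := lblLaw ρ ν)
    (f := fun ω => genOp step ν i t G (run step x0 (J.erase i) t ω)) (C := 2 * C)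
    (Filter.Eventually.of_forall fun ω => by
      simpa using abs_genOp_le ν hstep hG hC i t _)
  simpa using this

/-- The generator formula between two times. -/
theorem gen_diff (J : Finset I) {τ₁ τ₂ : ℝ} (h12 : τ₁ ≤ τ₂) :
    ∫ ω, G (run step x0 J τ₂ ω) ∂(lblLaw ρ ν) - ∫ ω, G (run step x0 J τ₁ ω) ∂(lblLaw ρ ν) =
      ∑ i ∈ J, ∫ t, (if τ₁ ≤ t ∧ t < τ₂ then
        ∫ ω, genOp step ν i t G (run step x0 (J.erase i) t ω) ∂(lblLaw ρ ν) else 0) ∂(ρ i) := by
  rw [gen_formula x0 ρ ν hstep hG hC J τ₂, gen_formula x0 ρ ν hstep hG hC J τ₁, add_sub_add_left_eq_sub,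
    ← Finset.sum_sub_distrib]
  refine Finset.sum_congr rfl fun i _ => ?_
  have hA := integrable_A x0 ρ ν hstep hG hC J i (ρ i)
  have hi : ∀ τ : ℝ, Integrable (fun t => if t < τ then
      ∫ ω, genOp step ν i t G (run step x0 (J.erase i) t ω) ∂(lblLaw ρ ν) else 0) (ρ i) := by
    intro τ
    have : (fun t => if t < τ then
        ∫ ω, genOp step ν i t G (run step x0 (J.erase i) t ω) ∂(lblLaw ρ ν) else 0) =
        (Set.Iio τ).indicator (fun t =>
          ∫ ω, genOp step ν i t G (run step x0 (J.erase i) t ω) ∂(lblLaw ρ ν)) := by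
      funext t
      by_cases ht : t < τ <;> simp [ht, Set.indicator]
    rw [this]
    exact hA.indicator measurableSet_Iio
  rw [← integral_sub (hi τ₂) (hi τ₁)]
  refine integral_congr_ae (Filter.Eventually.of_forall fun t => ?_)
  simp only
  by_cases h1 : t < τ₁
  · have h2 : t < τ₂ := lt_of_lt_of_le h1 h12
    simp [h1, h2, not_le.mpr h1]
  · by_cases h2 : t < τ₂
    · simp [h1, h2, not_lt.mp h1]
    · simp [h1, h2]

end gen

section hole

variable [Fintype I] [MeasurableSpace M] [MeasurableSpace X]
variable (ρ : I → Measure ℝ) [∀ i, IsProbabilityMeasure (ρ i)] [∀ i, NullSingletonClass (ρ i)]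
variable (ν : Measure M) [IsProbabilityMeasure ν]
variable {step}

/-- The integrand of the hole estimate. -/
lemma integrable_H_run (hstep : ∀ i, Measurable (fun p : ℝ × M × X => step i p.1 p.2.1 p.2.2))
    {H : X → ℝ} (hH : Measurable H) {D : ℝ} (hD : ∀ x, |H x| ≤ D) (J : Finset I) (t : ℝ) :
    Integrable (fun ω => H (run step x0 J t ω)) (lblLaw ρ ν) := by
  have hY : Measurable (fun ω : Lbl I M => run step x0 J t ω) :=
    (measurable_run x0 hstep J).comp (measurable_const.prodMk measurable_id)
  exact Integrable.of_bound (hH.comp hY).aestronglyMeasurable D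
    (Filter.Eventually.of_forall fun ω => by simpa using hD _)

variable (hstep : ∀ i, Measurable (fun p : ℝ × M × X => step i p.1 p.2.1 p.2.2))

include hstep

/-- **Hole factor.**  If with probability at least `1/2` the mark makes the step at `i` trivial,
then the state without the ring `i` is dominated by the state itself. -/
theorem hole_le (J : Finset I) (i : I) (t : ℝ) {Idm : Set M} (hIdm : MeasurableSet Idm)
    (hν : 1 / 2 ≤ ν.real Idm) (hid : ∀ s, ∀ mk ∈ Idm, ∀ x, step i s mk x = x)
    {H : X → ℝ} (hH : Measurable H) {D : ℝ} (hD : ∀ x, |H x| ≤ D) (hH0 : ∀ x, 0 ≤ H x) :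
    ∫ ω, H (run step x0 (J.erase i) t ω) ∂(lblLaw ρ ν) ≤
      2 * ∫ ω, H (run step x0 J t ω) ∂(lblLaw ρ ν) := by
  have hD0 : 0 ≤ D := le_trans (abs_nonneg _) (hD x0)
  set Y : Lbl I M → X := fun ω => run step x0 (J.erase i) t ω with hYdef
  have hY : Measurable Y :=
    (measurable_run x0 hstep (J.erase i)).comp (measurable_const.prodMk measurable_id)
  have hHY : Integrable (fun ω => H (Y ω)) (lblLaw ρ ν) :=
    integrable_H_run x0 ρ ν hstep hH hD _ t
  have hHJ : Integrable (fun ω => H (run step x0 J t ω)) (lblLaw ρ ν) :=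
    integrable_H_run x0 ρ ν hstep hH hD _ t
  -- the event
  let ev : Lbl I M → ℝ := fun ω => (Idm.indicator (fun _ => (1 : ℝ))) (ω i).2
  have hev : Measurable ev :=
    (measurable_const.indicator hIdm).comp (measurable_mark i)
  have hprod : Integrable (fun ω => ev ω * H (Y ω)) (lblLaw ρ ν) := by
    refine Integrable.of_bound (hev.mul (hH.comp hY)).aestronglyMeasurable D
      (Filter.Eventually.of_forall fun ω => ?_)
    simp only [ev, Set.indicator, Real.norm_eq_abs]
    split_ifs
    · simpa using hD _
    · simp [hD0]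
  have h1 : ∫ ω, ev ω * H (Y ω) ∂(lblLaw ρ ν) ≤ ∫ ω, H (run step x0 J t ω) ∂(lblLaw ρ ν) := by
    refine integral_mono hprod hHJ fun ω => ?_
    simp only [ev, Set.indicator]
    split_ifs with hmk
    · have : run step x0 J t ω = Y ω :=
        run_eq_erase_of_id step x0 J t i fun x => hid _ _ hmk x
      rw [this, one_mul]
    · rw [zero_mul]; exact hH0 _
  have h2 : ∫ ω, ev ω * H (Y ω) ∂(lblLaw ρ ν) = ν.real Idm * ∫ ω, H (Y ω) ∂(lblLaw ρ ν) := by
    have hupd := integral_update (fun i => (ρ i).prod ν) i (H := fun ω => ev ω * H (Y ω)) hprod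
    have e1 : ∫ ω, ev ω * H (Y ω) ∂(lblLaw ρ ν) =
        ∫ ω, ∫ z, ev (Function.update ω i z) * H (Y (Function.update ω i z))
          ∂((ρ i).prod ν) ∂(lblLaw ρ ν) := hupd
    rw [e1, ← integral_const_mul]
    refine integral_congr_ae (Filter.Eventually.of_forall fun ω => ?_)
    have hY' : ∀ z, Y (Function.update ω i z) = Y ω := fun z =>
      run_erase_congr step x0 J i t fun j hj => by rw [Function.update_of_ne hj]
    simp only [hY', ev, Function.update_self]
    rw [integral_mul_const]
    congr 1
    have hset : MeasurableSet {z : ℝ × M | z.2 ∈ Idm} := measurable_snd hIdm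
    have e2 : (fun z : ℝ × M => Idm.indicator (fun _ => (1 : ℝ)) z.2) =
        {z : ℝ × M | z.2 ∈ Idm}.indicator (fun _ => (1 : ℝ)) := by
      funext z
      simp [Set.indicator]
    rw [e2, integral_indicator hset, setIntegral_const]
    have e3 : {z : ℝ × M | z.2 ∈ Idm} = Set.univ ×ˢ Idm := by
      ext z; simp
    simp [Measure.real, e3, Measure.prod_prod]
  have h3 : 0 ≤ ∫ ω, H (Y ω) ∂(lblLaw ρ ν) := integral_nonneg fun ω => hH0 _
  rw [h2] at h1
  nlinarith

/-- Measurability in time of the expectation of a jointly measurable bounded function. -/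
lemma stronglyMeasurable_E (J : Finset I) {H : ℝ → X → ℝ}
    (hH : Measurable (fun p : ℝ × X => H p.1 p.2)) :
    StronglyMeasurable (fun t => ∫ ω, H t (run step x0 J t ω) ∂(lblLaw ρ ν)) := by
  have hY : Measurable (fun p : ℝ × Lbl I M => run step x0 J p.1 p.2) :=
    measurable_run x0 hstep J
  have h : Measurable (fun p : ℝ × Lbl I M => H p.1 (run step x0 J p.1 p.2)) :=
    hH.comp (measurable_fst.prodMk hY)
  exact h.stronglyMeasurable.integral_prod_right' (ν := lblLaw ρ ν)

lemma integrable_E (J : Finset I) {H : ℝ → X → ℝ}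
    (hH : Measurable (fun p : ℝ × X => H p.1 p.2)) {D : ℝ} (hD : ∀ t x, |H t x| ≤ D)
    (μt : Measure ℝ) [IsFiniteMeasure μt] :
    Integrable (fun t => ∫ ω, H t (run step x0 J t ω) ∂(lblLaw ρ ν)) μt := by
  refine Integrable.of_bound (stronglyMeasurable_E x0 ρ ν hstep J hH).aestronglyMeasurable D
    (Filter.Eventually.of_forall fun t => ?_)
  have := norm_integral_le_of_norm_le_const (μ := lblLaw ρ ν)
    (f := fun ω => H t (run step x0 J t ω)) (C := D)
    (Filter.Eventually.of_forall fun ω => by simpa using hD t _)
  simpa using this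

/-- **Generator inequality with holes.**  If the generator of ring `i` at time `t` is dominated by
a nonnegative bounded function `H i t` of the state, the increment of the expectation is bounded
by the expectation of `H` at the state itself (no hole), with a factor `2`. -/
theorem gen_le {G : X → ℝ} (hG : Measurable G) {C : ℝ} (hC : ∀ x, |G x| ≤ C)
    (J : Finset I) {τ₁ τ₂ : ℝ} (h12 : τ₁ ≤ τ₂)
    {Idm : Set M} (hIdm : MeasurableSet Idm) (hν : 1 / 2 ≤ ν.real Idm)
    (hid : ∀ i s, ∀ mk ∈ Idm, ∀ x, step i s mk x = x)
    {H : I → ℝ → X → ℝ} (hH : ∀ i, Measurable (fun p : ℝ × X => H i p.1 p.2)) {D : ℝ}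
    (hD : ∀ i t x, |H i t x| ≤ D) (hH0 : ∀ i t x, 0 ≤ H i t x)
    (hgen : ∀ i, i ∈ J → ∀ t x, genOp step ν i t G x ≤ H i t x) :
    ∫ ω, G (run step x0 J τ₂ ω) ∂(lblLaw ρ ν) - ∫ ω, G (run step x0 J τ₁ ω) ∂(lblLaw ρ ν) ≤
      2 * ∑ i ∈ J, ∫ t, (if τ₁ ≤ t ∧ t < τ₂ then
        ∫ ω, H i t (run step x0 J t ω) ∂(lblLaw ρ ν) else 0) ∂(ρ i) := by
  rw [gen_diff x0 ρ ν hstep hG hC J h12, Finset.mul_sum]
  refine Finset.sum_le_sum fun i hi => ?_
  rw [← integral_const_mul]
  have hset : MeasurableSet {t : ℝ | τ₁ ≤ t ∧ t < τ₂} :=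
    (measurableSet_le measurable_const measurable_id).inter
      (measurableSet_lt measurable_id measurable_const)
  have hA := integrable_A x0 ρ ν hstep hG hC J i (ρ i)
  have hE := integrable_E x0 ρ ν hstep J (hH i) (hD i) (ρ i)
  have e1 : Integrable (fun t => if τ₁ ≤ t ∧ t < τ₂ then
      ∫ ω, genOp step ν i t G (run step x0 (J.erase i) t ω) ∂(lblLaw ρ ν) else 0) (ρ i) := by
    have : (fun t => if τ₁ ≤ t ∧ t < τ₂ then
        ∫ ω, genOp step ν i t G (run step x0 (J.erase i) t ω) ∂(lblLaw ρ ν) else 0) =
        {t : ℝ | τ₁ ≤ t ∧ t < τ₂}.indicator (fun t =>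
          ∫ ω, genOp step ν i t G (run step x0 (J.erase i) t ω) ∂(lblLaw ρ ν)) := by
      funext t
      simp [Set.indicator]
    rw [this]
    exact hA.indicator hset
  have e2 : Integrable (fun t => 2 * if τ₁ ≤ t ∧ t < τ₂ then
      ∫ ω, H i t (run step x0 J t ω) ∂(lblLaw ρ ν) else 0) (ρ i) := by
    have : (fun t => 2 * if τ₁ ≤ t ∧ t < τ₂ then
        ∫ ω, H i t (run step x0 J t ω) ∂(lblLaw ρ ν) else 0) =
        {t : ℝ | τ₁ ≤ t ∧ t < τ₂}.indicator (fun t =>
          2 * ∫ ω, H i t (run step x0 J t ω) ∂(lblLaw ρ ν)) := by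
      funext t
      by_cases ht : τ₁ ≤ t ∧ t < τ₂ <;> simp [Set.indicator, ht]
    rw [this]
    exact (hE.const_mul 2).indicator hset
  refine integral_mono e1 e2 fun t => ?_
  by_cases ht : τ₁ ≤ t ∧ t < τ₂
  · simp only [ht, and_self, if_true]
    have hHt : Measurable (H i t) := (hH i).comp (measurable_const.prodMk measurable_id)
    have hY : Measurable (fun ω : Lbl I M => run step x0 (J.erase i) t ω) :=
      (measurable_run x0 hstep (J.erase i)).comp (measurable_const.prodMk measurable_id)
    have hi1 : Integrable (fun ω => genOp step ν i t G (run step x0 (J.erase i) t ω))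
        (lblLaw ρ ν) := by
      have hm : Measurable (genOp step ν i t G) := by
        unfold genOp
        have h3 : Measurable (fun q : X × M => G (step i t q.2 q.1)) :=
          hG.comp ((hstep i).comp (measurable_const.prodMk (measurable_snd.prodMk measurable_fst)))
        exact (h3.stronglyMeasurable.integral_prod_right' (ν := ν)).measurable.sub hG
      refine Integrable.of_bound (hm.comp hY).aestronglyMeasurable (2 * C)
        (Filter.Eventually.of_forall fun ω => ?_)
      simpa using abs_genOp_le ν hstep hG hC i t _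
    calc ∫ ω, genOp step ν i t G (run step x0 (J.erase i) t ω) ∂(lblLaw ρ ν)
        ≤ ∫ ω, H i t (run step x0 (J.erase i) t ω) ∂(lblLaw ρ ν) :=
          integral_mono hi1 (integrable_H_run x0 ρ ν hstep hHt (hD i t) _ t)
            fun ω => hgen i hi t _
      _ ≤ _ := hole_le x0 ρ ν hstep J i t hIdm hν (hid i) hHt (hD i t) (hH0 i t)
  · simp [ht]

end hole

end Crest.Agent.Lib.IsingFIID.RingSys
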