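/-
The hole factor and the generator inequality when the identity event of a ring is an event on its
whole label (time and mark) and not just on its mark.
-/
import Crest.Agent.Lib.IsingFIID.RingSys

set_option autoImplicit false
set_option linter.unusedSectionVars false
set_option linter.unusedVariables false

namespace Crest.Agent.Lib.IsingFIID.RingSys

open MeasureTheory Finset

variable {I : Type*} [LinearOrder I]
variable {M : Type*} {X : Type*}
variable {step : I → ℝ → M → X → X} (x0 : X)

section hole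

variable [Fintype I] [MeasurableSpace M] [MeasurableSpace X]
variable (ρ : I → Measure ℝ) [∀ i, IsProbabilityMeasure (ρ i)] [∀ i, NullSingletonClass (ρ i)]
variable (ν : Measure M) [IsProbabilityMeasure ν]
variable (hstep : ∀ i, Measurable (fun p : ℝ × M × X => step i p.1 p.2.1 p.2.2))

include hstep

/-- **Hole factor, event form.**  If with probability at least `1/2` the label of `i` makes its step
trivial, then the state without the ring `i` is dominated by the state itself. -/
theorem hole_le_event (J : Finset I) (i : I) (t : ℝ) {Idm : Set (ℝ × M)} (hIdm : MeasurableSet Idm)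
    (hν : 1 / 2 ≤ ((ρ i).prod ν).real Idm) (hid : ∀ z ∈ Idm, ∀ x, step i z.1 z.2 x = x)
    {H : X → ℝ} (hH : Measurable H) {D : ℝ} (hD : ∀ x, |H x| ≤ D) (hH0 : ∀ x, 0 ≤ H x) :
    ∫ ω, H (run step x0 (J.erase i) t ω) ∂(lblLaw ρ ν) ≤
      2 * ∫ ω, H (run step x0 J t ω) ∂(lblLaw ρ ν) := by
  have hD0 : 0 ≤ D := le_trans (abs_nonneg _) (hD x0)
  set Y : Lbl I M → X := fun ω => run step x0 (J.erase i) t ω with hYdef
  have hY : Measurable Y :=
    (measurable_run x0 hstep (J.erase i)).comp (measurable_const.prodMk measurable_id)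
  have hHY : Integrable (fun ω => H (Y ω)) (lblLaw ρ ν) :=
    integrable_H_run x0 ρ ν hstep hH hD _ t
  have hHJ : Integrable (fun ω => H (run step x0 J t ω)) (lblLaw ρ ν) :=
    integrable_H_run x0 ρ ν hstep hH hD _ t
  -- the event
  let ev : Lbl I M → ℝ := fun ω => (Idm.indicator (fun _ => (1 : ℝ))) (ω i)
  have hev : Measurable ev :=
    (measurable_const.indicator hIdm).comp (measurable_pi_apply i)
  have hprod : Integrable (fun ω => ev ω * H (Y ω)) (lblLaw ρ ν) := by
    refine Integrable.of_bound (hev.mul (hH.comp hY)).aestronglyMeasurable D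
      (Filter.Eventually.of_forall fun ω => ?_)
    simp only [ev, Set.indicator, Real.norm_eq_abs]
    split_ifs
    · simpa using hD _
    · simp [hD0]
  have h1 : ∫ ω, ev ω * H (Y ω) ∂(lblLaw ρ ν) ≤ ∫ ω, H (run step x0 J t ω) ∂(lblLaw ρ ν) := by
    refine integral_mono hprod hHJ fun ω => ?_
    simp only [ev, Set.indicator]
    split_ifs with hmk
    · have : run step x0 J t ω = Y ω :=
        run_eq_erase_of_id step x0 J t i fun x => hid _ hmk x
      rw [this, one_mul]
    · rw [zero_mul]; exact hH0 _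
  have h2 : ∫ ω, ev ω * H (Y ω) ∂(lblLaw ρ ν) = ((ρ i).prod ν).real Idm * ∫ ω, H (Y ω) ∂(lblLaw ρ ν) := by
    have hupd := integral_update (fun i => (ρ i).prod ν) i (H := fun ω => ev ω * H (Y ω)) hprod
    have e1 : ∫ ω, ev ω * H (Y ω) ∂(lblLaw ρ ν) =
        ∫ ω, ∫ z, ev (Function.update ω i z) * H (Y (Function.update ω i z))
          ∂((ρ i).prod ν) ∂(lblLaw ρ ν) := hupd
    rw [e1, ← integral_const_mul]
    refine integral_congr_ae (Filter.Eventually.of_forall fun ω => ?_)
    have hY' : ∀ z, Y (Function.update ω i z) = Y ω := fun z =>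
      run_erase_congr step x0 J i t fun j hj => by rw [Function.update_of_ne hj]
    simp only [hY', ev, Function.update_self]
    rw [integral_mul_const]
    congr 1
    rw [integral_indicator hIdm, setIntegral_const]
    simp [Measure.real]
  have h3 : 0 ≤ ∫ ω, H (Y ω) ∂(lblLaw ρ ν) := integral_nonneg fun ω => hH0 _
  rw [h2] at h1
  nlinarith

/-- **Generator inequality with holes, event form.**  If the generator of ring `i` at time `t` in
`[τ₁,τ₂)` is dominated by a nonnegative bounded function `H i t` of the state, the increment of the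
expectation is bounded by the expectation of `H` at the state itself (no hole), with a factor `2`. -/
theorem gen_le_event {G : X → ℝ} (hG : Measurable G) {C : ℝ} (hC : ∀ x, |G x| ≤ C)
    (J : Finset I) {τ₁ τ₂ : ℝ} (h12 : τ₁ ≤ τ₂)
    {Idm : I → Set (ℝ × M)} (hIdm : ∀ i, MeasurableSet (Idm i))
    (hν : ∀ i, 1 / 2 ≤ ((ρ i).prod ν).real (Idm i))
    (hid : ∀ i, ∀ z ∈ Idm i, ∀ x, step i z.1 z.2 x = x)
    {H : I → ℝ → X → ℝ} (hH : ∀ i, Measurable (fun p : ℝ × X => H i p.1 p.2)) {D : ℝ}
    (hD : ∀ i t x, |H i t x| ≤ D) (hH0 : ∀ i t x, 0 ≤ H i t x)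
    (hgen : ∀ i, i ∈ J → ∀ t, τ₁ ≤ t → t < τ₂ → ∀ x, genOp step ν i t G x ≤ H i t x) :
    ∫ ω, G (run step x0 J τ₂ ω) ∂(lblLaw ρ ν) - ∫ ω, G (run step x0 J τ₁ ω) ∂(lblLaw ρ ν) ≤
      2 * ∑ i ∈ J, ∫ t, (if τ₁ ≤ t ∧ t < τ₂ then
        ∫ ω, H i t (run step x0 J t ω) ∂(lblLaw ρ ν) else 0) ∂(ρ i) := by
  rw [gen_diff x0 ρ ν hstep hG hC J h12, Finset.mul_sum]
  refine Finset.sum_le_sum fun i hi => ?_
  rw [← integral_const_mul]
  have hset : MeasurableSet {t : ℝ | τ₁ ≤ t ∧ t < τ₂} :=
    (measurableSet_le measurable_const measurable_id).inter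
      (measurableSet_lt measurable_id measurable_const)
  have hA := integrable_A x0 ρ ν hstep hG hC J i (ρ i)
  have hE := integrable_E x0 ρ ν hstep J (hH i) (hD i) (ρ i)
  have e1 : Integrable (fun t => if τ₁ ≤ t ∧ t < τ₂ then
      ∫ ω, genOp step ν i t G (run step x0 (J.erase i) t ω) ∂(lblLaw ρ ν) else 0) (ρ i) := by
    have : (fun t => if τ₁ ≤ t ∧ t < τ₂ then
        ∫ ω, genOp step ν i t G (run step x0 (J.erase i) t ω) ∂(lblLaw ρ ν) else 0) =
        {t : ℝ | τ₁ ≤ t ∧ t < τ₂}.indicator (fun t =>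
          ∫ ω, genOp step ν i t G (run step x0 (J.erase i) t ω) ∂(lblLaw ρ ν)) := by
      funext t
      simp [Set.indicator]
    rw [this]
    exact hA.indicator hset
  have e2 : Integrable (fun t => 2 * if τ₁ ≤ t ∧ t < τ₂ then
      ∫ ω, H i t (run step x0 J t ω) ∂(lblLaw ρ ν) else 0) (ρ i) := by
    have : (fun t => 2 * if τ₁ ≤ t ∧ t < τ₂ then
        ∫ ω, H i t (run step x0 J t ω) ∂(lblLaw ρ ν) else 0) =
        {t : ℝ | τ₁ ≤ t ∧ t < τ₂}.indicator (fun t =>
          2 * ∫ ω, H i t (run step x0 J t ω) ∂(lblLaw ρ ν)) := by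
      funext t
      by_cases ht : τ₁ ≤ t ∧ t < τ₂ <;> simp [Set.indicator, ht]
    rw [this]
    exact (hE.const_mul 2).indicator hset
  refine integral_mono e1 e2 fun t => ?_
  by_cases ht : τ₁ ≤ t ∧ t < τ₂
  · simp only [ht, and_self, if_true]
    have hHt : Measurable (H i t) := (hH i).comp (measurable_const.prodMk measurable_id)
    have hY : Measurable (fun ω : Lbl I M => run step x0 (J.erase i) t ω) :=
      (measurable_run x0 hstep (J.erase i)).comp (measurable_const.prodMk measurable_id)
    have hi1 : Integrable (fun ω => genOp step ν i t G (run step x0 (J.erase i) t ω))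
        (lblLaw ρ ν) := by
      have hm : Measurable (genOp step ν i t G) := by
        unfold genOp
        have h3 : Measurable (fun q : X × M => G (step i t q.2 q.1)) :=
          hG.comp ((hstep i).comp (measurable_const.prodMk (measurable_snd.prodMk measurable_fst)))
        exact (h3.stronglyMeasurable.integral_prod_right' (ν := ν)).measurable.sub hG
      refine Integrable.of_bound (hm.comp hY).aestronglyMeasurable (2 * C)
        (Filter.Eventually.of_forall fun ω => ?_)
      simpa using abs_genOp_le ν hstep hG hC i t _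
    calc ∫ ω, genOp step ν i t G (run step x0 (J.erase i) t ω) ∂(lblLaw ρ ν)
        ≤ ∫ ω, H i t (run step x0 (J.erase i) t ω) ∂(lblLaw ρ ν) :=
          integral_mono hi1 (integrable_H_run x0 ρ ν hstep hHt (hD i t) _ t)
            fun ω => hgen i hi t ht.1 ht.2 _
      _ ≤ _ := hole_le_event x0 ρ ν hstep J i t (hIdm i) (hν i) (hid i) hHt (hD i t) (hH0 i t)
  · simp [ht]

end hole

end Crest.Agent.Lib.IsingFIID.RingSys
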