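/-
Row 160 (S0241).  EXACT statements of the tasks, all `sorry`.  DO NOT IMPORT THIS FILE IN A PROOF.
Shared definitions are in `Defs.lean` and (below, to be moved to `Basic.lean`) `Tree`, `IsWin`, `IsStrength`.
When you prove a block, put it in its own file `Crest/Agent/Lib/IsingFIID/<Task>.lean`, namespace
`Crest.Agent.Lib.IsingFIID`, same statements (you may strengthen or add hypotheses you really need, then tell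
the notes table, topic S0241).  See BLUEPRINT.md.
-/
import Crest.Agent.Lib.IsingFIID.Basic

set_option autoImplicit false

namespace Crest.Agent.Lib.IsingFIID

open MeasureTheory Filter Topology Set SimpleGraph
open scoped ENNReal

variable {V : Type*} [DecidableEq V] {G : SimpleGraph V} [G.LocallyFinite] {d : ℕ}

/-! ## Task CH: the channel (Channel.lean).  `|a| ≤ 1/2`, `|w| ≤ 1`, `κ ∈ [0,1/2]`, `|m| ≤ 1`, `u ∈ [0,1]`. -/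

theorem abs_psiQ_le {a w : ℝ} (ha : |a| ≤ 1 / 2) (hw : |w| ≤ 1) : |psiQ a w| ≤ 1 := sorry

/-- `ψ` solves the quadratic. -/
theorem psiQ_eq {a w : ℝ} (ha : |a| ≤ 1 / 2) (hw : |w| ≤ 1) :
    psiQ a w + a / 2 * (psiQ a w ^ 2 - 1) = w := sorry

/-- Change of variables: `ψ` has density `(1 + a ψ)/2` on `[-1,1]`. -/
theorem lintegral_psiQ {a : ℝ} (ha : |a| ≤ 1 / 2) {g : ℝ → ℝ≥0∞} (hg : Measurable g) :
    ∫⁻ u : Lab, g (psiQ a (2 * (u : ℝ) - 1)) =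
      ∫⁻ u : Lab, g (2 * (u : ℝ) - 1) * ENNReal.ofReal (1 + a * (2 * (u : ℝ) - 1)) := sorry

theorem abs_xQ_le {κ m u : ℝ} (h0 : 0 ≤ κ) (h1 : κ ≤ 1 / 2) (hm : |m| ≤ 1) (hu : u ∈ Icc (0 : ℝ) 1) :
    |xQ κ m u| ≤ κ := sorry

theorem abs_gamQ_le {κ m u : ℝ} (h0 : 0 ≤ κ) (h1 : κ ≤ 1 / 2) (hm : |m| ≤ 1) (hu : u ∈ Icc (0 : ℝ) 1) :
    |gamQ κ m u| ≤ 2 * κ := sorry

/-- Mean zero of the martingale increment. -/
theorem integral_gamQ {κ m : ℝ} (h0 : 0 ≤ κ) (h1 : κ ≤ 1 / 2) (hm : |m| ≤ 1) :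
    ∫ u : Lab, gamQ κ m (u : ℝ) = 0 := sorry

/-- Lipschitz in the mean, second order in `κ`. -/
theorem exists_gamQ_lip : ∃ C : ℝ, 0 < C ∧ ∀ κ m m' u : ℝ, 0 ≤ κ → κ ≤ 1 / 2 → |m| ≤ 1 → |m'| ≤ 1 →
    u ∈ Icc (0 : ℝ) 1 → |gamQ κ m u - gamQ κ m' u| ≤ C * κ ^ 2 * |m - m'| := sorry

theorem measurable_xQ : Measurable fun p : ℝ × ℝ × ℝ => xQ p.1 p.2.1 p.2.2 := sorry

theorem isStrength_kap {ε : ℝ} (h0 : 0 ≤ ε) (h1 : ε ≤ 1 / 2) : IsStrength (kap ε) := sorry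

/-! ## Task GI: finite-window Gibbs (helper27: TreeGibbs.lean, Bethe.lean).  `θ ∈ [0,1)`. -/

theorem sum_bw (hT : G.IsTree) {W : Finset V} (hW : IsWin G W) {θ : ℝ} :
    ∑ A ∈ W.powerset, bw G θ W A = 1 := sorry

theorem bw_pos {W A : Finset V} {θ : ℝ} (h0 : 0 ≤ θ) (h1 : θ < 1) : 0 < bw G θ W A := sorry

/-- Marginal consistency of the free weights: `W₀ ⊆ W` subtrees. -/
theorem sum_bw_marginal (hT : G.IsTree) {W₀ W : Finset V} (h0 : IsWin G W₀) (hW : IsWin G W)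
    (hs : W₀ ⊆ W) {θ : ℝ} (A₀ : Finset V) (hA₀ : A₀ ⊆ W₀) :
    ∑ A ∈ W.powerset.filter (fun A => A ∩ W₀ = A₀), bw G θ W A = bw G θ W₀ A₀ := sorry

/-- Free two-point function. -/
theorem sum_bw_sp_sp (hT : G.IsTree) {W : Finset V} (hW : IsWin G W) {θ : ℝ} {u v : V}
    (hu : u ∈ W) (hv : v ∈ W) :
    ∑ A ∈ W.powerset, bw G θ W A * (sp A u * sp A v) = θ ^ G.dist u v := sorry

theorem gZ_pos {W : Finset V} {θ : ℝ} (h0 : 0 ≤ θ) (h1 : θ < 1) (h : V → ℝ) :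
    0 < gZ G θ W h := sorry

theorem abs_gm_le {W : Finset V} {θ : ℝ} (h0 : 0 ≤ θ) (h1 : θ < 1) (h : V → ℝ) (v : V) :
    |gm G θ W h v| ≤ 1 := sorry

theorem abs_gcov_le {W : Finset V} {θ : ℝ} (h0 : 0 ≤ θ) (h1 : θ < 1) (h : V → ℝ) (u v : V) :
    |gcov G θ W h u v| ≤ 1 := sorry

/-- The update: a tilt `x` at `z` moves the means by `Cov · x/(1+x m_z)`. -/
theorem gm_update {W : Finset V} {θ : ℝ} (h0 : 0 ≤ θ) (h1 : θ < 1) (h : V → ℝ) {z : V} (hz : z ∈ W)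
    {x : ℝ} (hx : |x| < 1) (v : V) :
    gm G θ W (Function.update h z (h z + Real.artanh x)) v =
      gm G θ W h v + gcov G θ W h v z * (x / (1 + x * gm G θ W h z)) := sorry

/-- Only the fields on `W` matter. -/
theorem gm_congr {W : Finset V} {θ : ℝ} {h h' : V → ℝ} (hh : ∀ v ∈ W, h v = h' v) (v : V) :
    gm G θ W h v = gm G θ W h' v := sorry

/-- Covariance as a product of slopes along the geodesic. -/
theorem gcov_eq_pathCov (hT : G.IsTree) {W : Finset V} (hW : IsWin G W) {θ : ℝ} (h0 : 0 ≤ θ) (h1 : θ < 1)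
    (h : V → ℝ) {x : ℕ → V} {r : ℕ} (hx : IsGeod G x r) (hxW : ∀ i, i ≤ r → x i ∈ W) :
    gcov G θ W h (x 0) (x r) = pathCov θ (gm G θ W h) x r := sorry

/-- Deterministic bound of the means by the fields: degrees `≤ d`. -/
theorem abs_gm_le_tanh (hG : Tree G d) {W : Finset V} (hW : IsWin G W) {θ B : ℝ} (h0 : 0 ≤ θ) (h1 : θ < 1)
    (h : V → ℝ) (hB : ∀ v ∈ W, |h v| ≤ B) {v : V} (hv : v ∈ W) :
    |gm G θ W h v| ≤ Real.tanh (B + d * Real.artanh θ) := sorry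

/-- Mean at the root of a half ball is the recursion. -/
theorem gm_halfBall (hG : Tree G d) {θ : ℝ} (h0 : 0 ≤ θ) (h1 : θ < 1) (h : V → ℝ) {x p : V} (hxp : G.Adj p x)
    (N : ℕ) : gm G θ (halfBall G p x N) h x = nuV G θ h N x p := sorry

/-- Cavity in a ball: for `b` at distance `i` from the centre `o`, `p` the neighbour of `b` towards `o`
(or `b = o` and `p` any neighbour), the Bethe inverse of the two window means is the recursion `nuV`. -/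
theorem nuOf_gm_ball (hG : Tree G d) {θ : ℝ} (h0 : 0 ≤ θ) (h1 : θ < 1) (h : V → ℝ) {o b p : V} {N : ℕ}
    (hb : G.dist o b ≤ N) (hpN : G.dist o p ≤ N) (hp : G.Adj b p)
    (hdir : b = o ∨ G.dist o b = G.dist o p + 1) :
    nuOf θ (gm G θ (ball G o N) h p) (gm G θ (ball G o N) h b) = nuV G θ h (N - G.dist o b) b p := sorry

/-! ### Bethe calculus (real variables). -/

theorem exists_bethe_bounds {θm : ℝ} (h0 : 0 ≤ θm) (h1 : θm < 1) :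
    ∃ L : ℝ, 0 < L ∧ ∀ θ θ' a b a' b' : ℝ, 0 ≤ θ → θ ≤ θm → 0 ≤ θ' → θ' ≤ θm →
      |a| ≤ 1 → |b| ≤ 1 → |a'| ≤ 1 → |b'| ≤ 1 →
        |nuOf θ a b| ≤ 1 ∧
        |nuOf θ a b| ≤ L * (|a| + |b|) ∧
        |nuOf θ a b - nuOf θ' a' b'| ≤ L * (|a - a'| + |b - b'| + |θ - θ'|) ∧
        0 ≤ uOf θ a b ∧ uOf θ a b ≤ 1 ∧
        |uOf θ a b - uOf θ' a' b'| ≤ L * (|a - a'| + |b - b'| + |θ - θ'|) := sorry

/-- If the means are bounded away from `±1` so is the cavity. -/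
theorem abs_nuOf_le_of_abs_le {θ t a b : ℝ} (h0 : 0 ≤ θ) (h1 : θ < 1) (ht : t < 1) (ha : |a| ≤ t)
    (hb : |b| ≤ t) : |nuOf θ a b| ≤ (t + θ) / (1 + θ * t) := sorry

/-- In the bounded regime `a = -log u` is even-quadratic near `0`. -/
theorem exists_aOf_bounds {θm t : ℝ} (h0 : 0 ≤ θm) (h1 : θm < 1) (ht0 : 0 ≤ t) (ht : t < 1) :
    ∃ L : ℝ, 0 < L ∧ ∀ θ θ' a b a' b' : ℝ, 0 ≤ θ → θ ≤ θm → 0 ≤ θ' → θ' ≤ θm →
      |a| ≤ t → |b| ≤ t → |a'| ≤ t → |b'| ≤ t →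
        0 ≤ aOf θ a b ∧ aOf θ a b ≤ L * (|a| + |b|) ^ 2 ∧ Real.exp (- aOf θ a b) = uOf θ a b ∧
        |aOf θ a b - aOf θ' a' b'| ≤
          L * (|a| + |b| + |a'| + |b'|) * (|a - a'| + |b - b'| + |θ - θ'|) := sorry

/-- Both directions of a path (automatic from symmetry of `gcov`); used in the tail. -/
theorem pathCov_reverse (hT : G.IsTree) {W : Finset V} (hW : IsWin G W) {θ : ℝ} (h0 : 0 ≤ θ) (h1 : θ < 1)
    (h : V → ℝ) {x : ℕ → V} {r : ℕ} (hx : IsGeod G x r) (hxW : ∀ i, i ≤ r → x i ∈ W) :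
    pathCov θ (gm G θ W h) x r = pathCov θ (gm G θ W h) (fun i => x (r - i)) r := sorry

/-! ## Task RI: rings (Rings.lean). -/

/-- The recurrence. -/
theorem field_rec {θ : ℝ} {κ : ℝ → ℝ} {W : Finset V} (ω : Om V) (τ : ℝ) (v : V) :
    field G θ κ W ω τ v =
      if v ∈ W then
        ∑ n ∈ Finset.range ⌈τ⌉₊,
          haveI := Classical.propDecidable (before ω v n τ)
          if before ω v n τ then
            Real.artanh (xQ (κ (ringT ω v n))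
              (gm G θ W (field G θ κ W ω (ringT ω v n)) v) (ω.2 (v, n) : ℝ))
          else 0
      else 0 := sorry

theorem measurable_field {θ : ℝ} {κ : ℝ → ℝ} (hκ : Measurable κ) {W : Finset V} (v : V) :
    Measurable fun p : ℝ × Om V => field G θ κ W p.2 p.1 v := sorry

theorem measurable_mW {θ : ℝ} {κ : ℝ → ℝ} (hκ : Measurable κ) {W : Finset V} (v : V) :
    Measurable fun p : ℝ × Om V => mW G θ κ W p.2 p.1 v := sorry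

/-- Own-field bound: at most `⌈τ⌉₊` rings of strength `≤ ε`. -/
theorem abs_field_le {θ ε : ℝ} {κ : ℝ → ℝ} (hθ0 : 0 ≤ θ) (hθ1 : θ < 1) (hκ : IsStrength κ)
    (hκε : ∀ τ, κ τ ≤ ε) (hε : ε ≤ 1 / 2) {W : Finset V} (ω : Om V) (τ : ℝ) (v : V) :
    |field G θ κ W ω τ v| ≤ ⌈τ⌉₊ * Real.artanh ε := sorry

/-- Fields before `τ` depend only on the strength before `τ`. With `κ' = κ` before `τ` and `κ' = 0` after,
this freezes a system at time `τ`: `field κ' τ₂ = field κ τ` for `τ ≤ τ₂`. -/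
theorem field_congr_strength {θ τ₀ : ℝ} {κ κ' : ℝ → ℝ} (hκκ' : ∀ s, 0 ≤ s → s < τ₀ → κ s = κ' s)
    {W : Finset V} (ω : Om V) {τ : ℝ} (hτ : τ ≤ τ₀) :
    field G θ κ W ω τ = field G θ κ' W ω τ := sorry

theorem field_frozen {θ : ℝ} {κ κ' : ℝ → ℝ} {τ₀ : ℝ} (hκκ' : ∀ s, 0 ≤ s → s < τ₀ → κ s = κ' s)
    (h0 : ∀ s, τ₀ ≤ s → κ' s = 0) {W : Finset V} (ω : Om V) {τ : ℝ} (hτ : τ₀ ≤ τ) :
    field G θ κ' W ω τ = field G θ κ W ω τ₀ := sorry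

/-- Exact equivariance of the window system. -/
theorem field_act {θ : ℝ} {κ : ℝ → ℝ} {W : Finset V} (g : G ≃g G) (ω : Om V) (τ : ℝ) (v : V) :
    field G θ κ W (act g ω) τ v = field G θ κ (W.map g.toEquiv.toEmbedding) ω τ (g v) := sorry

/-- The increment inequality for two systems driven by the same labels.  `hstep` is the one-ring
inequality, at all states.  Rings of vertices outside `W ∪ W'` do nothing.  Hole factor: the state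
seen by a ring of `z` in round `n` at time `τ` is the state at `τ` with `(z,n)` erased; since
`z` has no ring in round `n` with probability `1/2`, for `X ≥ 0` its mean is at most `2 E X(state τ)`, and
the density of ring times on `[n,n+1)` is `1/2`. -/
theorem ring_increment_le {θ θ' : ℝ} {κ κ' : ℝ → ℝ} (hθ0 : 0 ≤ θ) (hθ1 : θ < 1) (hθ0' : 0 ≤ θ') (hθ1' : θ' < 1)
    (hκ : IsStrength κ) (hκ' : IsStrength κ') {W W' : Finset V}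
    (F : (V → ℝ) × (V → ℝ) → ℝ) (hF : Measurable F) (hFb : ∃ C, ∀ s, |F s| ≤ C)
    (X : V → ℝ → (V → ℝ) × (V → ℝ) → ℝ)
    (hX : ∀ z, Measurable fun p : ℝ × (V → ℝ) × (V → ℝ) => X z p.1 p.2)
    (hXb : ∃ C, ∀ z τ s, 0 ≤ X z τ s ∧ X z τ s ≤ C)
    {τ₁ τ₂ : ℝ} (h01 : 0 ≤ τ₁) (h12 : τ₁ ≤ τ₂)
    (hstep : ∀ z ∈ W ∪ W', ∀ τ ∈ Icc τ₁ τ₂, ∀ s : (V → ℝ) × (V → ℝ),
      (∫ u : Lab, F (stepW G θ (κ τ) W z (u : ℝ) s.1, stepW G θ' (κ' τ) W' z (u : ℝ) s.2)) - F s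
        ≤ X z τ s) :
    (∫ ω, F (field G θ κ W ω τ₂, field G θ' κ' W' ω τ₂) ∂(PP V)) -
        ∫ ω, F (field G θ κ W ω τ₁, field G θ' κ' W' ω τ₁) ∂(PP V) ≤
      ∑ z ∈ W ∪ W', ∫ τ in τ₁..τ₂, ∫ ω, X z τ (field G θ κ W ω τ, field G θ' κ' W' ω τ) ∂(PP V) := sorry

/-! ## Task LA: the law (Law.lean). -/

/-- The planted formula: the driven fields have density `lik` relative to the undriven ones. -/
theorem lintegral_field_eq (hT : G.IsTree) {W : Finset V} (hW : IsWin G W) {θ : ℝ} {κ : ℝ → ℝ} (hθ0 : 0 ≤ θ)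
    (hθ1 : θ < 1) (hκ : IsStrength κ) (τ : ℝ) {Ψ : (V → ℝ) → ℝ≥0∞} (hΨ : Measurable Ψ) :
    ∫⁻ ω, Ψ (field G θ κ W ω τ) ∂(PP V) =
      ∫⁻ ω, Ψ (field0W κ W ω τ) * ENNReal.ofReal (lik G θ κ W ω τ) ∂(PP V) := sorry

/-- Consistency: the law of the fields on a sub-window does not depend on the ambient window. -/
theorem lintegral_field_sub (hT : G.IsTree) {W₀ W : Finset V} (h0W : IsWin G W₀) (hW : IsWin G W)
    (hs : W₀ ⊆ W) {θ : ℝ} {κ : ℝ → ℝ} (hθ0 : 0 ≤ θ) (hθ1 : θ < 1) (hκ : IsStrength κ) (τ : ℝ)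
    {Ψ : (V → ℝ) → ℝ≥0∞} (hΨ : Measurable Ψ) (hdep : ∀ h h' : V → ℝ, (∀ v ∈ W₀, h v = h' v) → Ψ h = Ψ h') :
    ∫⁻ ω, Ψ (field G θ κ W ω τ) ∂(PP V) = ∫⁻ ω, Ψ (field G θ κ W₀ ω τ) ∂(PP V) := sorry

/-- Own-site information: `δ τ → 0`, uniformly in everything. -/
theorem exists_own_bound {ε : ℝ} (h0 : 0 < ε) (h1 : ε ≤ 1 / 2) :
    ∃ δ : ℝ → ℝ, Tendsto δ atTop (𝓝 0) ∧ ∀ τ, 0 ≤ δ τ ∧
      ∀ (V : Type _) [DecidableEq V] (G : SimpleGraph V) (_ : G.IsTree) (W : Finset V) (_ : IsWin G W) (θ : ℝ)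
        (_ : 0 ≤ θ) (_ : θ < 1) (v : V), v ∈ W →
        ∫ ω, (1 - mW G θ (kap ε) W ω τ v ^ 2) ∂(PP V) ≤ δ τ := sorry

/-- The sign pattern of the means has nearly the Ising law (`S ⊆ W` connected). -/
theorem sign_law_approx (hT : G.IsTree) {W S : Finset V} (hW : IsWin G W) (hS : IsWin G S) (hs : S ⊆ W)
    {θ : ℝ} {κ : ℝ → ℝ} (hθ0 : 0 ≤ θ) (hθ1 : θ < 1) (hκ : IsStrength κ) (τ : ℝ) (η : V → Bool) :
    |((PP V) {ω | ∀ v ∈ S, (0 < mW G θ κ W ω τ v ↔ η v = true)}).toReal -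
        Crest.ProbabilityR.TreeIsing.isingWeight G θ S η| ≤
      ∑ v ∈ S, ∫ ω, (1 - mW G θ κ W ω τ v ^ 2) ∂(PP V) := sorry

/-- Monotonicity in `θ` of `E Ψ(m)` for even convex `Ψ` (mixture over edge signs + gauge + Jensen). -/
theorem integral_convex_mono (hT : G.IsTree) {W : Finset V} (hW : IsWin G W) {θ θ' : ℝ} {κ : ℝ → ℝ} (hθ0 : 0 ≤ θ)
    (hθθ' : θ ≤ θ') (hθ1 : θ' < 1) (hκ : IsStrength κ) (τ : ℝ) {Ψ : ℝ → ℝ}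
    (hΨ : ConvexOn ℝ (Icc (-1) 1) Ψ) (hev : ∀ x, Ψ (-x) = Ψ x) (hc : ContinuousOn Ψ (Icc (-1) 1)) {v : V}
    (hv : v ∈ W) :
    ∫ ω, Ψ (mW G θ κ W ω τ v) ∂(PP V) ≤ ∫ ω, Ψ (mW G θ' κ W ω τ v) ∂(PP V) := sorry

/-! ## Task SC: the strict case (Strict.lean): `θ² (d-1) < 1`. -/

theorem L2_window (hG : Tree G d) {θ τ₁ : ℝ} {κ : ℝ → ℝ} (hθ0 : 0 ≤ θ) (hθ : θ ^ 2 * ((d : ℝ) - 1) < 1)
    (hκ : IsStrength κ) : ∃ B γ : ℝ, 0 ≤ B ∧ 0 < γ ∧ γ < 1 ∧ ∀ W W' : Finset V, IsWin G W → IsWin G W' → W ⊆ W' →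
      ∀ (v : V) (N : ℕ), ball G v N ⊆ W → ∀ τ ∈ Icc 0 τ₁,
        ∫ ω, (mW G θ κ W ω τ v - mW G θ κ W' ω τ v) ^ 2 ∂(PP V) ≤ B * γ ^ N := sorry

theorem mInf_L2 (hG : Tree G d) {θ τ₁ : ℝ} {κ : ℝ → ℝ} (hθ0 : 0 ≤ θ) (hθ : θ ^ 2 * ((d : ℝ) - 1) < 1)
    (hκ : IsStrength κ) : ∃ B γ : ℝ, 0 ≤ B ∧ 0 < γ ∧ γ < 1 ∧ ∀ W : Finset V, IsWin G W →
      ∀ (v : V) (N : ℕ), ball G v N ⊆ W → ∀ τ ∈ Icc 0 τ₁,
        ∫ ω, (mW G θ κ W ω τ v - mInf G θ κ ω τ v) ^ 2 ∂(PP V) ≤ B * γ ^ N := sorry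

theorem ae_tendsto_mInf (hG : Tree G d) {θ : ℝ} {κ : ℝ → ℝ} (hθ0 : 0 ≤ θ) (hθ : θ ^ 2 * ((d : ℝ) - 1) < 1)
    (hκ : IsStrength κ) (τ : ℝ) (v : V) :
    ∀ᵐ ω ∂(PP V), Tendsto (fun N => mW G θ κ (ball G v N) ω τ v) atTop (𝓝 (mInf G θ κ ω τ v)) := sorry

theorem measurable_mInf {θ : ℝ} {κ : ℝ → ℝ} (hκ : Measurable κ) (v : V) :
    Measurable fun p : ℝ × Om V => mInf G θ κ p.2 p.1 v := sorry

/-- Strict equivariance. -/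
theorem mInf_act (hT : G.IsTree) {θ : ℝ} {κ : ℝ → ℝ} (g : G ≃g G) (ω : Om V) (τ : ℝ) (v : V) :
    mInf G θ κ (act g ω) τ v = mInf G θ κ ω τ (g v) := sorry

/-- `act g` preserves the law of the labels. -/
theorem map_act (g : G ≃g G) : (PP V).map (act g) = PP V := sorry

/-- Deterministic bound, uniform in `θ ≤ θm`. -/
theorem exists_abs_mInf_le (hG : Tree G d) {θm ε τ₁ : ℝ} (h0 : 0 ≤ θm) (h1 : θm < 1) (hε : 0 ≤ ε)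
    (hε1 : ε ≤ 1 / 2) : ∃ t : ℝ, 0 ≤ t ∧ t < 1 ∧ ∀ θ, 0 ≤ θ → θ ≤ θm → ∀ ω τ v, τ ≤ τ₁ →
      |mInf G θ (kap ε) ω τ v| ≤ t := sorry

theorem abs_mInf_le (hG : Tree G d) {θ : ℝ} {κ : ℝ → ℝ} (h0 : 0 ≤ θ) (h1 : θ < 1) (ω : Om V) (τ : ℝ) (v : V) :
    |mInf G θ κ ω τ v| ≤ 1 := sorry

/-- No rings at time `0`, zero mean. -/
theorem mInf_zero (hG : Tree G d) {θ : ℝ} {κ : ℝ → ℝ} (h0 : 0 ≤ θ) (h1 : θ < 1) (ω : Om V) (v : V) :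
    mInf G θ κ ω 0 v = 0 := sorry

/-- Own-site bound in infinite volume, uniform in `θ`. -/
theorem exists_own_bound_mInf {ε : ℝ} (h0 : 0 < ε) (h1 : ε ≤ 1 / 2) :
    ∃ δ : ℝ → ℝ, Tendsto δ atTop (𝓝 0) ∧ ∀ τ, 0 ≤ δ τ ∧
      ∀ (V : Type _) [DecidableEq V] (G : SimpleGraph V) [G.LocallyFinite] (d : ℕ) (_ : Tree G d) (θ : ℝ)
        (_ : 0 ≤ θ) (_ : θ ^ 2 * ((d : ℝ) - 1) < 1) (v : V),
        ∫ ω, (1 - mInf G θ (kap ε) ω τ v ^ 2) ∂(PP V) ≤ δ τ := sorry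

/-- Martingale in time (frozen second system + `ring_increment_le` with `X = 0`, both signs). -/
theorem mInf_time (hG : Tree G d) {θ : ℝ} {κ : ℝ → ℝ} (hθ0 : 0 ≤ θ) (hθ : θ ^ 2 * ((d : ℝ) - 1) < 1)
    (hκ : IsStrength κ) {τ₁ τ₂ : ℝ} (h01 : 0 ≤ τ₁) (h12 : τ₁ ≤ τ₂) (v : V) :
    ∫ ω, (mInf G θ κ ω τ₂ v - mInf G θ κ ω τ₁ v) ^ 2 ∂(PP V) ≤ ∫ ω, (1 - mInf G θ κ ω τ₁ v ^ 2) ∂(PP V) := sorry

/-- The sign pattern of the infinite-volume means has nearly the Ising law. -/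
theorem sign_law_mInf (hG : Tree G d) {S : Finset V} (hS : IsWin G S) {θ : ℝ} {κ : ℝ → ℝ} (hθ0 : 0 ≤ θ)
    (hθ : θ ^ 2 * ((d : ℝ) - 1) < 1) (hκ : IsStrength κ) (τ : ℝ) (η : V → Bool) :
    |((PP V) {ω | ∀ v ∈ S, (0 < mInf G θ κ ω τ v ↔ η v = true)}).toReal -
        Crest.ProbabilityR.TreeIsing.isingWeight G θ S η| ≤
      4 * ∑ v ∈ S, ∫ ω, (1 - mInf G θ κ ω τ v ^ 2) ∂(PP V) := sorry

/-! ## Task ID: the increment inequalities in infinite volume (Increment.lean): window inequality + dominated convergence. -/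

theorem pair_increment (hG : Tree G d) : ∃ K : ℝ, 0 < K ∧ ∀ {θ θ' : ℝ} {κ : ℝ → ℝ} (_ : 0 ≤ θ) (_ : 0 ≤ θ')
    (_ : θ ^ 2 * ((d : ℝ) - 1) < 1) (_ : θ' ^ 2 * ((d : ℝ) - 1) < 1) (_ : IsStrength κ) {τ₁ τ₂ : ℝ}
    (_ : 0 ≤ τ₁) (_ : τ₁ ≤ τ₂) (v : V),
    (∫ ω, (mInf G θ κ ω τ₂ v - mInf G θ' κ ω τ₂ v) ^ 2 ∂(PP V)) -
        ∫ ω, (mInf G θ κ ω τ₁ v - mInf G θ' κ ω τ₁ v) ^ 2 ∂(PP V) ≤
      ∫ τ in τ₁..τ₂, ∑' r, ∑ y ∈ sphere G v r, ∫ ω, Xp K G θ θ' κ ω τ v y ∂(PP V) := sorry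

/-- `S` is nondecreasing in time (the one-ring expectation is `≥ 0`; apply `ring_increment_le` to `-F`, `X = 0`). -/
theorem pair_mono (hG : Tree G d) {θ θ' : ℝ} {κ : ℝ → ℝ} (h0 : 0 ≤ θ) (h0' : 0 ≤ θ')
    (hθ : θ ^ 2 * ((d : ℝ) - 1) < 1) (hθ' : θ' ^ 2 * ((d : ℝ) - 1) < 1) (hκ : IsStrength κ) {τ₁ τ₂ : ℝ}
    (h01 : 0 ≤ τ₁) (h12 : τ₁ ≤ τ₂) (v : V) :
    ∫ ω, (mInf G θ κ ω τ₁ v - mInf G θ' κ ω τ₁ v) ^ 2 ∂(PP V) ≤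
      ∫ ω, (mInf G θ κ ω τ₂ v - mInf G θ' κ ω τ₂ v) ^ 2 ∂(PP V) := sorry

theorem moment_increment (hG : Tree G d) : ∃ K : ℝ, 0 < K ∧ ∀ {θ : ℝ} {κ : ℝ → ℝ} (_ : 0 ≤ θ)
    (_ : θ ^ 2 * ((d : ℝ) - 1) < 1) (_ : IsStrength κ) {τ : ℝ} (_ : 0 ≤ τ) (v : V) (p : ℕ) (_ : 1 ≤ p),
    ∫ ω, mInf G θ κ ω τ v ^ (2 * p) ∂(PP V) ≤
      ∫ s in (0 : ℝ)..τ, K * p ^ 2 * κ s ^ 2 *
        ∫ ω, (mInf G θ κ ω s v ^ 2 + K * p * κ s ^ 2) ^ (p - 1) *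
          (∑' r, ∑ y ∈ sphere G v r, covI G θ κ ω s v y ^ 2) ∂(PP V) := sorry

/-- Moments increase in time (apply `ring_increment_le` to `-F`, `F = m^{2p}` convex). -/
theorem moment_mono (hG : Tree G d) {θ : ℝ} {κ : ℝ → ℝ} (h0 : 0 ≤ θ)
    (hθ : θ ^ 2 * ((d : ℝ) - 1) < 1) (hκ : IsStrength κ) {τ₁ τ₂ : ℝ} (h01 : 0 ≤ τ₁) (h12 : τ₁ ≤ τ₂) (v : V)
    (p : ℕ) : ∫ ω, mInf G θ κ ω τ₁ v ^ (2 * p) ∂(PP V) ≤ ∫ ω, mInf G θ κ ω τ₂ v ^ (2 * p) ∂(PP V) := sorry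

/-! ## Task ST: the static model (Static.lean): pure probability on the `D`-ary tree. `Λ` any probability law on `ℝ`. -/

section Static

variable {D : ℕ} [NeZero D] {Λ : Measure ℝ} [IsProbabilityMeasure Λ] {θ : ℝ}

/-- First moment along paths: a sibling of the path gives fresh attenuation at each level. -/
theorem static_first (hD : 2 ≤ D) (h0 : 0 ≤ θ) (h1 : θ < 1) {n N : ℕ}
    (hn : n ≤ N) : ∫ ξ, wT θ (ownOf ξ) (zetaOf ξ) n N [] ∂(QQ D Λ θ) ≤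
      ∏ i ∈ Finset.range n, (1 - (1 - θ) * θ ^ 2 * (1 - θ ^ 2) / 2 * qT D Λ θ (N - i - 1)) := sorry

/-- iid average: drop the top `m` levels. `P ≥ 1`. -/
theorem static_moment (hD : 2 ≤ D) (h0 : 0 ≤ θ) (h1 : θ < 1) {n m N : ℕ}
    (hmn : m ≤ n) (hn : n ≤ N) {P : ℕ} (hP : 1 ≤ P) :
    lpN (QQ D Λ θ) (fun ξ => wT θ (ownOf ξ) (zetaOf ξ) n N []) P ≤
      max ((P : ℝ) / (D : ℝ) ^ m) (2 * ∫ ξ, wT θ (ownOf ξ) (zetaOf ξ) (n - m) (N - m) [] ∂(QQ D Λ θ)) := sorry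

end Static

/-! ## Task TR: transfer from the driven system to the static model (Transfer.lean). Truth gauge. -/

/-- Law of `wTree` with window means in the ball around `x`. `D = d-1`. -/
theorem law_wTree (hG : Tree G d) {θ : ℝ} {κ : ℝ → ℝ} (h0 : 0 ≤ θ) (h1 : θ < 1) (hκ : IsStrength κ) (τ : ℝ)
    {x p : V} (hxp : G.Adj p x) {n N : ℕ} (hn : n ≤ N) (hN : 1 ≤ N) {Φ : ℝ → ℝ≥0∞} (hΦ : Measurable Φ) :
    ∫⁻ ω, Φ (wTree G θ (d - 1) (mW G θ κ (ball G x N) ω τ) n p x) ∂(PP V) =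
      ∫⁻ ξ, Φ (wT θ (ownOf ξ) (zetaOf ξ) n N []) ∂(QQ (d - 1) (ownLaw κ τ) θ) := sorry

/-- Law of the squared cavity with window means in the ball around `x`. -/
theorem law_nu (hG : Tree G d) {θ : ℝ} {κ : ℝ → ℝ} (h0 : 0 ≤ θ) (h1 : θ < 1) (hκ : IsStrength κ) (τ : ℝ)
    {x p : V} (hxp : G.Adj p x) {N : ℕ} (hN : 1 ≤ N) {Φ : ℝ → ℝ≥0∞} (hΦ : Measurable Φ) :
    ∫⁻ ω, Φ (nuOf θ (mW G θ κ (ball G x N) ω τ p) (mW G θ κ (ball G x N) ω τ x) ^ 2) ∂(PP V) =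
      ∫⁻ ξ, Φ (nuT θ (ownOf ξ) (zetaOf ξ) N [] ^ 2) ∂(QQ (d - 1) (ownLaw κ τ) θ) := sorry

/-! ## Task E: single-solution estimates, at `κ = kap ε`.  Uniform in `θ` with `ThetaRange d θ`. -/

/-- E1 (linear estimator + Cauchy-Schwarz in the planted model): attenuation is at least linear in `τ`. -/
theorem attenuation_lower (hG : Tree G d) {ε τ₁ : ℝ} (h0 : 0 < ε) (h1 : ε ≤ 1 / 2) (hτ₁ : 1 ≤ τ₁) :
    ∃ c : ℝ, 0 < c ∧ ∀ θ, ThetaRange d θ → ∀ τ ∈ Ioc 0 τ₁, ∀ x p, G.Adj p x →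
      c * τ ≤ (1 - θ ^ 2 * ((d : ℝ) - 1)) + qInf G θ (kap ε) τ x p := sorry

/-- E2: moments of the tree-averaged path weights. -/
theorem wTree_norm (hG : Tree G d) {ε τ₁ : ℝ} (h0 : 0 < ε) (h1 : ε ≤ 1 / 2) (hτ₁ : 1 ≤ τ₁) :
    ∃ c C : ℝ, 0 < c ∧ 0 < C ∧ ∀ θ, ThetaRange d θ → ∀ τ ∈ Ioc 0 τ₁, ∀ x p, G.Adj p x → ∀ (n P : ℕ), 1 ≤ P →
      (θ ^ 2 * ((d : ℝ) - 1)) ^ n *
          lpN (PP V) (fun ω => wTree G θ (d - 1) (fun u => mInf G θ (kap ε) ω τ u) n p x) P ≤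
        min 1 (C * Real.exp (- c * τ * n) + P * ((d : ℝ) - 1) ^ (-(n : ℝ) / 2)) := sorry

theorem rowSum_norm (hG : Tree G d) {ε τ₁ : ℝ} (h0 : 0 < ε) (h1 : ε ≤ 1 / 2) (hτ₁ : 1 ≤ τ₁) :
    ∃ C : ℝ, 0 < C ∧ ∀ θ, ThetaRange d θ → ∀ τ ∈ Ioc 0 τ₁, ∀ v, ∀ P : ℕ, 1 ≤ P →
      lpN (PP V) (fun ω => rowSum G θ (kap ε) ω τ v) P ≤ C * (1 / τ + Real.log (P + 1)) := sorry

/-- E3: moments of the mean. -/
theorem moment_bound (hG : Tree G d) {ε τ₁ : ℝ} (h0 : 0 < ε) (h1 : ε ≤ 1 / 2) (hτ₁ : 1 ≤ τ₁) :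
    ∃ C : ℝ, 0 < C ∧ ∀ θ, ThetaRange d θ → ∀ τ ∈ Ioc 0 τ₁, ∀ v, ∀ P : ℕ, 1 ≤ P →
      (∫ ω, mInf G θ (kap ε) ω τ v ^ (2 * P) ∂(PP V)) ^ (1 / (P : ℝ)) ≤ C * P ^ 3 * τ := sorry

/-- BSV applied to the pair: orthogonality along a geodesic. `helper22`: `BSV.lean` gives the local version. -/
theorem bsv_pair (hG : Tree G d) : ∃ C : ℝ, 0 < C ∧ ∀ {θ θ' ε τ₁ : ℝ}, ThetaRange d θ → ThetaRange d θ' →
    0 < ε → ε ≤ 1 / 2 → ∀ τ ∈ Ioc 0 τ₁, ∀ (x : ℕ → V) (r : ℕ), IsGeod G x r → 1 ≤ r →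
      ∫ ω, (∑ i ∈ Finset.range r, (fPair G θ θ' (kap ε) ω τ (x i) (x (i + 1)) -
          ∫ ω', fPair G θ θ' (kap ε) ω' τ (x 0) (x 1) ∂(PP V))) ^ 2 ∂(PP V) ≤
        C * r * ∫ ω, fPair G θ θ' (kap ε) ω τ (x 0) (x 1) ^ 2 ∂(PP V) := sorry

/-- E5: the means of the main functional converge along an increasing sequence `θ_j ↑ θc`. -/
theorem psi_tendsto (hG : Tree G d) {ε τ₁ : ℝ} (h0 : 0 < ε) (h1 : ε ≤ 1 / 2) (hτ₁ : 1 ≤ τ₁)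
    {θs : ℕ → ℝ} (hmono : Monotone θs) (hr : ∀ j, ThetaRange d (θs j))
    (hlim : Tendsto (fun j => θs j ^ 2 * ((d : ℝ) - 1)) atTop (𝓝 1)) {x p : V} (hxp : G.Adj p x)
    (τ : ℝ) (hτ : τ ∈ Ioc 0 τ₁) :
    Tendsto (fun jk : ℕ × ℕ => ∫ ω, fPair G (θs jk.1) (θs jk.2) (kap ε) ω τ p x ∂(PP V))
      (atTop ×ˢ atTop) (𝓝 0) := sorry

/-! ## Task C: the main inequality and the closure. -/

/-- The main inequality with a universal coefficient `b p` and a source `e j k` that vanishes as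
`j,k → ∞`: `Sd' ≤ b_p Sd^{1-1/p} + e`. -/
theorem main_ineq (hG : Tree G d) (K : ℝ) {ε τ₁ : ℝ} (h0 : 0 < ε) (h1 : ε ≤ 1 / 2) (hτ₁ : 1 ≤ τ₁)
    {θs : ℕ → ℝ} (hmono : Monotone θs) (hr : ∀ j, ThetaRange d (θs j))
    (hlim : Tendsto (fun j => θs j ^ 2 * ((d : ℝ) - 1)) atTop (𝓝 1)) (v : V) :
    ∃ (b : ℕ → ℝ → ℝ) (e : ℕ → ℕ → ℝ → ℝ),
      (∀ p, IntervalIntegrable (b p) volume 0 τ₁) ∧ (∀ p τ, 0 ≤ b p τ) ∧
      Tendsto (fun p : ℕ => (1 / (p : ℝ)) * ∫ τ in (0 : ℝ)..τ₁, b p τ) atTop (𝓝 0) ∧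
      (∀ j k, IntervalIntegrable (e j k) volume 0 τ₁) ∧ (∀ j k τ, 0 ≤ e j k τ) ∧
      Tendsto (fun jk : ℕ × ℕ => ∫ τ in (0 : ℝ)..τ₁, e jk.1 jk.2 τ) (atTop ×ˢ atTop) (𝓝 0) ∧
      ∀ j k, ∀ τ ∈ Ioc 0 τ₁, ∀ p : ℕ, 2 ≤ p →
        ∑' r, ∑ y ∈ sphere G v r, ∫ ω, Xp K G (θs j) (θs k) (kap ε) ω τ v y ∂(PP V) ≤
          b p τ * Sd G (θs j) (θs k) (kap ε) τ v ^ (1 - 1 / (p : ℝ)) + e j k τ := sorry

/-- Yudovich in integral form. -/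
theorem yudovich {S b e : ℝ → ℝ} {T : ℝ} {p : ℕ} (hp : 2 ≤ p) (hT : 0 ≤ T)
    (hSm : MonotoneOn S (Icc 0 T)) (hS0 : ∀ t ∈ Icc 0 T, 0 ≤ S t)
    (hb : IntervalIntegrable b volume 0 T) (hb0 : ∀ t, 0 ≤ b t)
    (he : IntervalIntegrable e volume 0 T) (he0 : ∀ t, 0 ≤ e t)
    (hS : ∀ t ∈ Icc 0 T, S t ≤ ∫ s in (0 : ℝ)..t, (b s * S s ^ (1 - 1 / (p : ℝ)) + e s)) :
    S T ≤ ((∫ s in (0 : ℝ)..T, e s) ^ (1 / (p : ℝ)) + (1 / (p : ℝ)) * ∫ s in (0 : ℝ)..T, b s) ^ p := sorry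

/-- Cauchy in `θ` at each fixed time. -/
theorem critical_cauchy (hG : Tree G d) {ε τ₁ : ℝ} (h0 : 0 < ε) (h1 : ε ≤ 1 / 2) (hτ₁ : 1 ≤ τ₁)
    {θs : ℕ → ℝ} (hmono : Monotone θs) (hr : ∀ j, ThetaRange d (θs j))
    (hlim : Tendsto (fun j => θs j ^ 2 * ((d : ℝ) - 1)) atTop (𝓝 1)) (v : V) :
    Tendsto (fun jk : ℕ × ℕ => Sd G (θs jk.1) (θs jk.2) (kap ε) τ₁ v) (atTop ×ˢ atTop) (𝓝 0) := sorry

/-! ## Task F: final assembly (Final.lean). -/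

/-- Abstract final step: a sequence of exactly equivariant measurable fields, fast Cauchy in `L²`,
asymptotically `±1`, with nearly the right sign law, gives the factor. -/
theorem factor_of_fields (f : ℕ → Om V → V → ℝ)
    (hm : ∀ j v, Measurable fun ω => f j ω v) (hb : ∀ j ω v, |f j ω v| ≤ 1)
    (heq : ∀ (g : G ≃g G) j ω v, f j (act g ω) v = f j ω (g v))
    (hfast : ∀ v, Summable fun j => Real.sqrt (∫ ω, (f (j + 1) ω v - f j ω v) ^ 2 ∂(PP V)))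
    (hone : ∀ v, Tendsto (fun j => ∫ ω, (1 - f j ω v ^ 2) ∂(PP V)) atTop (𝓝 0))
    (θ : ℝ) (hlaw : ∀ (S : Finset V) (η : V → Bool), IsWin G S →
      Tendsto (fun j => ((PP V) {ω | ∀ v ∈ S, (0 < f j ω v ↔ η v = true)}).toReal) atTop
        (𝓝 (Crest.ProbabilityR.TreeIsing.isingWeight G θ S η))) :
    ∃ Φ : (V → unitInterval) → (V → Bool),
      Measurable Φ ∧
      (∀ (g : G ≃g G) (x : V → unitInterval), Φ (x ∘ ⇑g) = Φ x ∘ ⇑g) ∧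
      ∀ (S : Finset V) (η : V → Bool), (G.induce (S : Set V)).Connected →
        (Crest.ProbabilityR.Labels.labelMeasure V).map Φ {σ | ∀ v ∈ S, σ v = η v} =
          ENNReal.ofReal (Crest.ProbabilityR.TreeIsing.isingWeight G θ S η) := sorry

end Crest.Agent.Lib.IsingFIID
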